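import Vale.Agent.P153.R2.L1.Stmts
import Vale.Agent.P164.Bdl.B1

/-!
# P153, SLE side, block L2.B: hulls with small increments form a Loewner chain
-/

open Complex Metric Set Filter Topology
open scoped Real ComplexConjugate
open Vale.Agent.P153.R2.L1 Vale.Agent.P164

namespace Vale.Agent.P153.R2.L2

/-- A growing family of hulls `K s`, `0 ≤ s < S`, parametrised by half of the capacity, whose
increments seen through `g s` are small and close to the point `W s`. -/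
structure Chain (W : ℝ → ℝ) (K : ℝ → Set ℂ) (g : ℝ → ℂ → ℂ) (S : ℝ) : Prop where
  pos : 0 < S
  hyd : ∀ s ∈ Ico 0 S, IsHydro (K s) (g s)
  zero : HH ∩ K 0 = ∅
  mono : ∀ s s' : ℝ, 0 ≤ s → s ≤ s' → s' < S → HH ∩ K s ⊆ K s'
  cap : ∀ s ∈ Ico 0 S, hcap (g s) = 2 * s
  small : ∀ S' < S, ∀ ε : ℝ, 0 < ε → ∃ δ : ℝ, 0 < δ ∧ ∀ s s' : ℝ, 0 ≤ s → s ≤ S' → s ≤ s' →
    s' ≤ s + δ → s' < S → g s '' ((HH \ K s) ∩ K s') ⊆ closedBall (W s : ℂ) ε

namespace Chain

variable {W : ℝ → ℝ} {K : ℝ → Set ℂ} {g : ℝ → ℂ → ℂ} {S : ℝ}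

theorem incr (h : Chain W K g S) {s s' : ℝ} (h0 : 0 ≤ s) (h1 : s ≤ s') (h2 : s' < S) :
    IsHydro (g s '' ((HH \ K s) ∩ K s')) (g s' ∘ inv (K s) (g s)) ∧
      hcap (g s' ∘ inv (K s) (g s)) = 2 * (s' - s) := by
  have hs : s ∈ Ico 0 S := ⟨h0, h1.trans_lt h2⟩
  have hs' : s' ∈ Ico 0 S := ⟨h0.trans h1, h2⟩
  obtain ⟨h3, h4⟩ := s_comp (K s') (K s) (g s') (g s) (h.hyd s' hs') (h.hyd s hs)
    (h.mono s s' h0 h1 h2)
  refine ⟨h3, ?_⟩
  rw [h.cap s hs, h.cap s' hs'] at h4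
  linarith

theorem sub (h : Chain W K g S) {s s' : ℝ} (h0 : 0 ≤ s) (h1 : s ≤ s') (h2 : s' < S) :
    HH \ K s' ⊆ HH \ K s := fun _ hz => ⟨hz.1, fun hc => hz.2 (h.mono s s' h0 h1 h2 ⟨hz.1, hc⟩)⟩

theorem mem_incr (h : Chain W K g S) {s s' : ℝ} (h0 : 0 ≤ s) (h1 : s ≤ s') (h2 : s' < S) {z : ℂ}
    (hz : z ∈ HH \ K s') : g s z ∈ HH \ g s '' ((HH \ K s) ∩ K s') := by
  have hs : s ∈ Ico 0 S := ⟨h0, h1.trans_lt h2⟩
  have hzs := h.sub h0 h1 h2 hz
  rw [(h.hyd s hs).sdiff_comp (h.mono s s' h0 h1 h2)]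
  exact ⟨z, hz, rfl⟩

theorem comp_apply (h : Chain W K g S) {s s' : ℝ} (h0 : 0 ≤ s) (h1 : s ≤ s') (h2 : s' < S) {z : ℂ}
    (hz : z ∈ HH \ K s) : (g s' ∘ inv (K s) (g s)) (g s z) = g s' z := by
  have hs : s ∈ Ico 0 S := ⟨h0, h1.trans_lt h2⟩
  simp only [Function.comp_apply, (h.hyd s hs).inv_g hz]

/-- the hulls grow strictly -/
theorem strict (h : Chain W K g S) {s s' : ℝ} (h0 : 0 ≤ s) (h1 : s < s') (h2 : s' < S) :
    ((HH \ K s) ∩ K s').Nonempty := by
  by_contra hcon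
  rw [not_nonempty_iff_eq_empty] at hcon
  obtain ⟨h3, h4⟩ := h.incr h0 h1.le h2
  rw [hcon, image_empty] at h3
  have h5 := s_cap_le ∅ _ 0 0 h3 le_rfl (by simp)
  rw [h4] at h5
  have := h5.2
  norm_num at this
  linarith

/-- `W` moves little. -/
theorem drv (h : Chain W K g S) {S' : ℝ} (hS' : S' < S) {ε : ℝ} (hε : 0 < ε) :
    ∃ δ : ℝ, 0 < δ ∧ ∀ s s' : ℝ, 0 ≤ s → s ≤ s' → s' ≤ S' → s' ≤ s + δ →
      |W s' - W s| ≤ 8 * ε := by
  obtain ⟨δ, hδ, hsm⟩ := h.small S' hS' ε hε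
  refine ⟨δ / 2, by positivity, ?_⟩
  intro s s' h0 h1 h2 h3
  set s'' := min (s' + δ / 2) ((s' + S) / 2) with hs''
  have h4 : s' < s'' := lt_min (by linarith) (by linarith)
  have h5 : s'' < S := (min_le_right _ _).trans_lt (by linarith)
  have h6 : s'' ≤ s + δ := (min_le_left _ _).trans (by linarith)
  have h0' : 0 ≤ s' := h0.trans h1
  obtain ⟨z, hz1, hz2⟩ := h.strict h0' h4 h5
  have hs : s ∈ Ico 0 S := ⟨h0, by linarith⟩
  have hs' : s' ∈ Ico 0 S := ⟨h0', by linarith⟩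
  have hzs : z ∈ HH \ K s := h.sub h0 h1 (by linarith) hz1
  have e1 : g s' z ∈ closedBall (W s' : ℂ) ε :=
    hsm s' s'' h0' h2 h4.le (by linarith [min_le_left (s' + δ / 2) ((s' + S) / 2)]) h5
      ⟨z, ⟨hz1, hz2⟩, rfl⟩
  have e2 : g s z ∈ closedBall (W s : ℂ) ε :=
    hsm s s'' h0 (h1.trans h2) (by linarith) h6 h5 ⟨z, ⟨hzs, hz2⟩, rfl⟩
  have e3 : ‖g s' z - g s z‖ ≤ 6 * ε := by
    have h7 := (h.incr h0 h1 (by linarith)).1
    have h8 : HH ∩ g s '' ((HH \ K s) ∩ K s') ⊆ closedBall (W s : ℂ) ε :=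
      inter_subset_right.trans (hsm s s' h0 (h1.trans h2) h1 (by linarith) (by linarith))
    have h9 := disp6 h7 hε.le h8 (h.mem_incr h0 h1 (by linarith) hz1)
    rwa [h.comp_apply h0 h1 (by linarith) hzs] at h9
  rw [mem_closedBall, dist_eq_norm] at e1 e2
  have e4 : |W s' - W s| = ‖(W s' : ℂ) - W s‖ := by
    rw [← ofReal_sub, norm_real, Real.norm_eq_abs]
  rw [e4]
  calc ‖(W s' : ℂ) - W s‖ = ‖-(g s' z - W s') + (g s' z - g s z) + (g s z - W s)‖ := by ring_nf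
    _ ≤ ‖-(g s' z - W s')‖ + ‖g s' z - g s z‖ + ‖g s z - W s‖ :=
      (norm_add_le _ _).trans (add_le_add_left (norm_add_le _ _) _)
    _ ≤ ε + 6 * ε + ε := by rw [norm_neg]; gcongr
    _ = 8 * ε := by ring

theorem cont (h : Chain W K g S) : ContinuousOn W (Ico 0 S) := by
  intro s hs
  rw [ContinuousWithinAt, Metric.tendsto_nhds]
  intro ε hε
  obtain ⟨δ, hδ, hd⟩ := h.drv (S' := (s + S) / 2) (by linarith [hs.2]) (ε := ε / 16) (by positivity)
  have h1 : ∀ᶠ t in 𝓝[Ico 0 S] s, |t - s| < min δ ((S - s) / 2) := by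
    have : ∀ᶠ t in 𝓝 s, |t - s| < min δ ((S - s) / 2) := by
      have h2 : 0 < min δ ((S - s) / 2) := lt_min hδ (by linarith [hs.2])
      exact Metric.ball_mem_nhds s h2
    exact this.filter_mono nhdsWithin_le_nhds
  filter_upwards [h1, self_mem_nhdsWithin] with t ht htS
  rw [Real.dist_eq]
  have ht1 : |t - s| < δ := ht.trans_le (min_le_left _ _)
  have ht2 : |t - s| < (S - s) / 2 := ht.trans_le (min_le_right _ _)
  rw [abs_lt] at ht1 ht2
  rcases le_total s t with h3 | h3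
  · have := hd s t hs.1 h3 (by linarith) (by linarith)
    linarith
  · have := hd t s htS.1 h3 (by linarith [hs.2]) (by linarith)
    rw [abs_sub_comm]
    linarith

/-- the difference quotient of `s ↦ g s z` -/
theorem quot (h : Chain W K g S) {t : ℝ} (ht : t ∈ Ico 0 S) {z : ℂ} (hz : z ∈ HH \ K t) {ε : ℝ}
    (hε : 0 < ε) (hεm : 2 * ε ≤ (g t z).im) :
    ∃ δ : ℝ, 0 < δ ∧ ∀ s s' : ℝ, 0 ≤ s → s ≤ s' → s' ≤ t → s' ≤ s + δ →
      ‖g s' z - g s z - ((s' - s : ℝ) : ℂ) * (2 / (g s z - W s))‖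
        ≤ (s' - s) * (12 * ε / (g t z).im ^ 2) ∧
      ‖g s' z - g s z‖ ≤ (s' - s) * (8 / (g t z).im) := by
  obtain ⟨δ, hδ, hsm⟩ := h.small t ht.2 ε hε
  refine ⟨δ, hδ, ?_⟩
  intro s s' h0 h1 h2 h3
  set m := (g t z).im with hm
  have hm0 : 0 < m := by linarith
  have h0' : 0 ≤ s' := h0.trans h1
  have hs'S : s' < S := h2.trans_lt ht.2
  have hz' : z ∈ HH \ K s' := h.sub h0' h2 ht.2 hz
  have hzs : z ∈ HH \ K s := h.sub h0 h1 hs'S hz'
  have hims : m ≤ (g s z).im := by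
    have h4 := (h.incr h0 (h1.trans h2) ht.2).1.im_le (h.mem_incr h0 (h1.trans h2) ht.2 hz)
    rwa [h.comp_apply h0 (h1.trans h2) ht.2 hzs] at h4
  obtain ⟨h7, h7c⟩ := h.incr h0 h1 hs'S
  have h8 : HH ∩ g s '' ((HH \ K s) ∩ K s') ⊆ closedBall (W s : ℂ) ε :=
    inter_subset_right.trans (hsm s s' h0 (h1.trans h2) h1 h3 hs'S)
  have hn : m ≤ ‖g s z - W s‖ := by
    have := Complex.abs_im_le_norm (g s z - W s)
    rw [sub_im, ofReal_im, sub_zero] at this
    linarith [le_abs_self (g s z).im]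
  have hn0 : 0 < ‖g s z - W s‖ := by linarith
  obtain ⟨h9, h10⟩ := exp6 h7 hε.le h8 (h.mem_incr h0 h1 hs'S hz').1 (by linarith)
  rw [h.comp_apply h0 h1 hs'S hzs, h7c] at h9 h10
  have hss : 0 ≤ s' - s := by linarith
  constructor
  · have e : ((2 * (s' - s) : ℝ) : ℂ) / (g s z - W s)
        = ((s' - s : ℝ) : ℂ) * (2 / (g s z - W s)) := by
      push_cast
      ring
    rw [e] at h10
    refine h10.trans ?_
    rw [div_le_iff₀ (by positivity)]
    have h11 : m ^ 2 ≤ ‖g s z - W s‖ ^ 2 := by gcongr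
    calc 6 * (2 * (s' - s)) * ε = (s' - s) * (12 * ε / m ^ 2) * m ^ 2 := by
          field_simp
          ring
      _ ≤ (s' - s) * (12 * ε / m ^ 2) * ‖g s z - W s‖ ^ 2 := by gcongr
  · refine h9.trans ?_
    rw [div_le_iff₀ hn0]
    calc 4 * (2 * (s' - s)) = (s' - s) * (8 / m) * m := by
          field_simp
          ring
      _ ≤ (s' - s) * (8 / m) * ‖g s z - W s‖ := by gcongr

theorem g_zero (h : Chain W K g S) {z : ℂ} (hz : z ∈ HH) : g 0 z = z := by
  have h0 := h.hyd 0 ⟨le_rfl, h.pos⟩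
  have h1 : HH \ K 0 = HH \ ∅ := by
    rw [sdiff_empty]
    ext w
    constructor
    · exact fun hw => hw.1
    · intro hw
      refine ⟨hw, fun hc => ?_⟩
      have : w ∈ HH ∩ K 0 := ⟨hw, hc⟩
      rw [h.zero] at this
      exact this
  exact (h0.congr_set Bornology.isBounded_empty h1).eq_id_of_empty hz

theorem contOn (h : Chain W K g S) {t : ℝ} (ht : t ∈ Ico 0 S) {z : ℂ} (hz : z ∈ HH \ K t) :
    ContinuousOn (fun s => g s z) (Icc 0 t) := by
  have hm0 : 0 < (g t z).im := (h.hyd t ht).mapsTo hz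
  obtain ⟨δ, hδ, hq⟩ := h.quot ht hz (ε := (g t z).im / 2) (by positivity) (by linarith)
  set M := 8 / (g t z).im with hM
  have hM0 : 0 < M := by positivity
  intro s hs
  rw [ContinuousWithinAt, Metric.tendsto_nhds]
  intro ε hε
  have h1 : ∀ᶠ u in 𝓝[Icc 0 t] s, |u - s| < min δ (ε / M) := by
    have h2 : 0 < min δ (ε / M) := lt_min hδ (by positivity)
    have : ∀ᶠ u in 𝓝 s, |u - s| < min δ (ε / M) := by
      exact Metric.ball_mem_nhds s h2
    exact this.filter_mono nhdsWithin_le_nhds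
  filter_upwards [h1, self_mem_nhdsWithin] with u hu hut
  have hu1 : |u - s| < δ := hu.trans_le (min_le_left _ _)
  have hu2 : |u - s| < ε / M := hu.trans_le (min_le_right _ _)
  rw [lt_div_iff₀ hM0] at hu2
  rw [abs_lt] at hu1
  rw [dist_eq_norm]
  rcases le_total s u with h3 | h3
  · have := (hq s u hs.1 h3 hut.2 (by linarith)).2
    rw [abs_of_nonneg (by linarith)] at hu2
    linarith
  · have := (hq u s hut.1 h3 hs.2 (by linarith)).2
    rw [norm_sub_rev]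
    rw [abs_of_nonpos (by linarith)] at hu2
    linarith

/-- **Loewner's equation.** -/
theorem sol (h : Chain W K g S) {t : ℝ} (ht : t ∈ Ico 0 S) {z : ℂ} (hz : z ∈ HH \ K t) :
    IsLoewnerSol W z t (fun s => g s z) := by
  have hm0 : 0 < (g t z).im := (h.hyd t ht).mapsTo hz
  refine ⟨h.g_zero hz.1, ?_⟩
  intro s hs
  have hsS : s ∈ Ico 0 S := ⟨hs.1, hs.2.trans_lt ht.2⟩
  have hzs : z ∈ HH \ K s := h.sub hs.1 hs.2 ht.2 hz
  have hpos : 0 < (g s z).im := (h.hyd s hsS).mapsTo hzs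
  refine ⟨hpos, ?_⟩
  -- continuity of the right-hand side
  have hcont : ContinuousOn (fun u => (2 : ℂ) / (g u z - W u)) (Icc 0 t) := by
    refine ContinuousOn.div continuousOn_const ?_ ?_
    · refine (h.contOn ht hz).sub ?_
      exact continuous_ofReal.comp_continuousOn (h.cont.mono (fun u hu => ⟨hu.1, hu.2.trans_lt ht.2⟩))
    · intro u hu
      have huS : u ∈ Ico 0 S := ⟨hu.1, hu.2.trans_lt ht.2⟩
      have h1 : 0 < (g u z).im := (h.hyd u huS).mapsTo (h.sub hu.1 hu.2 ht.2 hz)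
      exact sub_ne_zero_of_im h1 (W u)
  rw [hasDerivWithinAt_iff_isLittleO, Asymptotics.isLittleO_iff]
  intro c hc
  set m := (g t z).im with hm
  set ε := min (m / 2) (c * m ^ 2 / 24) with hε
  have hε0 : 0 < ε := lt_min (by positivity) (by positivity)
  have hεm : 2 * ε ≤ m := by linarith [min_le_left (m / 2) (c * m ^ 2 / 24)]
  have hεc : 12 * ε / m ^ 2 ≤ c / 2 := by
    rw [div_le_iff₀ (by positivity)]
    linarith [min_le_right (m / 2) (c * m ^ 2 / 24)]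
  obtain ⟨δ, hδ, hq⟩ := h.quot ht hz hε0 hεm
  have hev1 : ∀ᶠ u in 𝓝[Icc 0 t] s, |u - s| < δ := by
    have : ∀ᶠ u in 𝓝 s, |u - s| < δ := Metric.ball_mem_nhds s hδ
    exact this.filter_mono nhdsWithin_le_nhds
  have hev2 : ∀ᶠ u in 𝓝[Icc 0 t] s, ‖(2 : ℂ) / (g u z - W u) - 2 / (g s z - W s)‖ < c / 2 := by
    have := (hcont s hs)
    rw [ContinuousWithinAt, Metric.tendsto_nhds] at this
    have h2 := this (c / 2) (by positivity)
    simpa [dist_eq_norm] using h2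
  filter_upwards [hev1, hev2, self_mem_nhdsWithin] with u hu1 hu2 hu3
  rw [abs_lt] at hu1
  rcases le_total s u with h3 | h3
  · have h4 := (hq s u hs.1 h3 hu3.2 (by linarith)).1
    have e1 : g u z - g s z - (u - s) • (2 / (g s z - W s))
        = g u z - g s z - ((u - s : ℝ) : ℂ) * (2 / (g s z - W s)) := by
      rw [Complex.real_smul]
    rw [e1, Real.norm_eq_abs, abs_of_nonneg (by linarith : 0 ≤ u - s)]
    have h5 : 0 ≤ u - s := by linarith
    calc _ ≤ (u - s) * (12 * ε / m ^ 2) := h4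
      _ ≤ (u - s) * (c / 2) := by gcongr
      _ ≤ c * (u - s) := by nlinarith
  · have h4 := (hq u s hu3.1 h3 hs.2 (by linarith)).1
    have h5 : 0 ≤ s - u := by linarith
    have e1 : g u z - g s z - (u - s) • (2 / (g s z - W s))
        = -(g s z - g u z - ((s - u : ℝ) : ℂ) * (2 / (g u z - W u)))
          + ((s - u : ℝ) : ℂ) * (-((2 : ℂ) / (g u z - W u) - 2 / (g s z - W s))) := by
      rw [Complex.real_smul]
      push_cast
      ring
    rw [e1, Real.norm_eq_abs, abs_of_nonpos (by linarith : u - s ≤ 0)]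
    refine (norm_add_le _ _).trans ?_
    rw [norm_neg, norm_mul, norm_neg, norm_real, Real.norm_eq_abs, abs_of_nonneg h5]
    calc _ ≤ (s - u) * (12 * ε / m ^ 2) + (s - u) * (c / 2) := by
          gcongr
      _ ≤ (s - u) * (c / 2) + (s - u) * (c / 2) := by gcongr
      _ = c * -(u - s) := by ring

/-- **The hulls are the Loewner hulls of `W`.** -/
theorem dom (h : Chain W K g S) {t : ℝ} (ht : t ∈ Ico 0 S) :
    loewnerDomain W t = HH \ K t := by
  apply Subset.antisymm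
  · rintro z ⟨v, hv⟩
    have hzH : z ∈ HH := hv.im_pos ht.1
    refine ⟨hzH, fun hzK => ?_⟩
    set A : Set ℝ := {s | 0 ≤ s ∧ s ≤ t ∧ z ∈ K s} with hA
    have htA : t ∈ A := ⟨ht.1, le_rfl, hzK⟩
    have hAb : BddBelow A := ⟨0, fun s hs => hs.1⟩
    set T := sInf A with hT
    have hT0 : 0 ≤ T := le_csInf ⟨t, htA⟩ fun s hs => hs.1
    have hTt : T ≤ t := csInf_le hAb htA
    have hTS : T ∈ Ico 0 S := ⟨hT0, hTt.trans_lt ht.2⟩
    have hlt : ∀ s, 0 ≤ s → s < T → z ∉ K s := by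
      intro s h0 h1 h2
      have : T ≤ s := csInf_le hAb ⟨h0, (h1.le.trans hTt), h2⟩
      linarith
    -- `z ∈ K T`
    have hTK : z ∈ K T := by
      by_contra hcon
      have hpos : 0 < (g T z).im := (h.hyd T hTS).mapsTo ⟨hzH, hcon⟩
      obtain ⟨δ, hδ, hsm⟩ := h.small T hTS.2 ((g T z).im / 2) (by positivity)
      obtain ⟨s, hsA, hs⟩ := exists_lt_of_csInf_lt ⟨t, htA⟩ (show sInf A < T + δ by linarith)
      have hTs : T ≤ s := csInf_le hAb hsA
      have h1 := hsm T s hT0 le_rfl hTs hs.le (hsA.2.1.trans_lt ht.2)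
        ⟨z, ⟨⟨hzH, hcon⟩, hsA.2.2⟩, rfl⟩
      rw [mem_closedBall, dist_eq_norm] at h1
      have h2 := Complex.abs_im_le_norm (g T z - W T)
      rw [sub_im, ofReal_im, sub_zero] at h2
      linarith [le_abs_self (g T z).im]
    have hTpos : 0 < T := by
      rcases hT0.eq_or_lt with h1 | h1
      · exfalso
        rw [← h1] at hTK
        have : z ∈ HH ∩ K 0 := ⟨hzH, hTK⟩
        rw [h.zero] at this
        exact this
      · exact h1
    -- `v s = g s z` for `s < T`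
    have hveq : ∀ s, 0 ≤ s → s < T → v s = g s z := by
      intro s h0 h1
      have hsS : s ∈ Ico 0 S := ⟨h0, by linarith [hTS.2]⟩
      have h2 := h.sol hsS ⟨hzH, hlt s h0 h1⟩
      exact (hv.restrict (h1.le.trans hTt)).unique h2 ⟨h0, le_rfl⟩
    have hvT : 0 < (v T).im := (hv.2 T ⟨hT0, hTt⟩).1
    -- continuity of `v - W` from the left at `T`
    have hvc : ContinuousWithinAt v (Icc 0 t) T := (hv.2 T ⟨hT0, hTt⟩).2.continuousWithinAt
    obtain ⟨δ, hδ, hsm⟩ := h.small T hTS.2 ((v T).im / 4) (by positivity)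
    have hev : ∀ᶠ u in 𝓝[Icc 0 t] T, ‖v u - v T‖ < (v T).im / 4 := by
      rw [ContinuousWithinAt, Metric.tendsto_nhds] at hvc
      simpa [dist_eq_norm] using hvc ((v T).im / 4) (by positivity)
    rw [eventually_nhdsWithin_iff, Metric.eventually_nhds_iff] at hev
    obtain ⟨η, hη, hev⟩ := hev
    set s := max (T / 2) (T - min (δ / 2) (η / 2)) with hs
    have hs1 : s < T := max_lt (by linarith) (by
      have : 0 < min (δ / 2) (η / 2) := lt_min (by positivity) (by positivity)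
      linarith)
    have hs0 : 0 < s := lt_of_lt_of_le (by positivity) (le_max_left _ _)
    have hs2 : T - min (δ / 2) (η / 2) ≤ s := le_max_right _ _
    have hs3 : T ≤ s + δ := by linarith [min_le_left (δ / 2) (η / 2)]
    have hs4 : dist s T < η := by
      rw [Real.dist_eq, abs_of_neg (by linarith)]
      linarith [min_le_right (δ / 2) (η / 2)]
    have h1 := hsm s T hs0.le hs1.le hs1.le hs3 hTS.2
      ⟨z, ⟨⟨hzH, hlt s hs0.le hs1⟩, hTK⟩, rfl⟩
    rw [← hveq s hs0.le hs1, mem_closedBall, dist_eq_norm] at h1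
    have h2 := hev hs4 ⟨hs0.le, hs1.le.trans hTt⟩
    have h3 := Complex.abs_im_le_norm (v s - W s)
    rw [sub_im, ofReal_im, sub_zero] at h3
    have h4 := Complex.abs_im_le_norm (v s - v T)
    rw [sub_im] at h4
    have h5 := (abs_le.mp (h3.trans h1)).2
    have h6 := (abs_le.mp (h4.trans h2.le)).1
    linarith
  · intro z hz
    exact ⟨_, h.sol ht hz⟩

end Chain

end Vale.Agent.P153.R2.L2
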