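import Vale.Agent.P153.R2.L2.Crv
import Vale.Agent.P153.R2.L2.Chain
import Vale.Agent.P153.R2.ARCX.Defs

/-!
# P153, SLE side, block L2.B: the driving function of a simple curve
-/

open Complex Metric Set Filter Topology
open scoped Real ComplexConjugate
open Vale.Agent.P153.R2.L1 Vale.Agent.P164

namespace Vale.Agent.P153.R2.L2

/-- inverse of the time change -/
noncomputable def tau (γ : ℝ → ℂ) (T : ℝ) (s : ℝ) : ℝ := Function.invFunOn (cc γ) (Ico 0 T) s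

/-- the driving function -/
noncomputable def drv (γ : ℝ → ℂ) (T : ℝ) (s : ℝ) : ℝ := ww γ (tau γ T s)

theorem loewnerSol_congr {W W' : ℝ → ℝ} {z : ℂ} {t : ℝ} {g : ℝ → ℂ} (h : ∀ s ∈ Icc 0 t, W s = W' s)
    (hg : IsLoewnerSol W z t g) : IsLoewnerSol W' z t g := by
  refine ⟨hg.1, fun s hs => ⟨(hg.2 s hs).1, ?_⟩⟩
  rw [← h s hs]
  exact (hg.2 s hs).2

theorem loewnerDomain_congr {W W' : ℝ → ℝ} {t : ℝ} (h : ∀ s ∈ Icc 0 t, W s = W' s) :
    loewnerDomain W t = loewnerDomain W' t := by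
  ext z
  constructor
  · rintro ⟨g, hg⟩
    exact ⟨g, loewnerSol_congr h hg⟩
  · rintro ⟨g, hg⟩
    exact ⟨g, loewnerSol_congr (fun s hs => (h s hs).symm) hg⟩

namespace Crv

variable {γ : ℝ → ℂ} {T : ℝ}

theorem tau_spec (_h : Crv γ T) {s : ℝ} (hs : s ∈ cc γ '' Ico 0 T) :
    tau γ T s ∈ Ico 0 T ∧ cc γ (tau γ T s) = s :=
  ⟨Function.invFunOn_mem hs, Function.invFunOn_eq hs⟩

theorem tau_cc (h : Crv γ T) {t : ℝ} (ht : t ∈ Ico 0 T) : tau γ T (cc γ t) = t := by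
  obtain ⟨h1, h2⟩ := h.tau_spec (mem_image_of_mem _ ht)
  exact h.strictMono.injOn h1 ht h2

theorem tau_mono (h : Crv γ T) {s s' : ℝ} (hs : s ∈ cc γ '' Ico 0 T) (hs' : s' ∈ cc γ '' Ico 0 T)
    (hss : s ≤ s') : tau γ T s ≤ tau γ T s' := by
  obtain ⟨h1, h2⟩ := h.tau_spec hs
  obtain ⟨h3, h4⟩ := h.tau_spec hs'
  rw [← h.strictMono.le_iff_le h1 h3, h2, h4]
  exact hss

theorem Icc_sub (h : Crv γ T) {t : ℝ} (ht : t ∈ Ico 0 T) :
    Icc 0 (cc γ t) ⊆ cc γ '' Icc 0 t := by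
  have h1 := intermediate_value_Icc ht.1
    (h.cap_cont.mono (fun s hs => ⟨hs.1, hs.2.trans_lt ht.2⟩ : Icc 0 t ⊆ Ico 0 T))
  rwa [h.cap_zero] at h1

theorem Icc_sub' (h : Crv γ T) {t : ℝ} (ht : t ∈ Ico 0 T) :
    Icc 0 (cc γ t) ⊆ cc γ '' Ico 0 T :=
  (h.Icc_sub ht).trans (image_mono fun _ hs => ⟨hs.1, hs.2.trans_lt ht.2⟩)

/-- modulus of continuity of the inverse time change -/
theorem tau_unif (h : Crv γ T) {a b η : ℝ} (ha : a ∈ Ico 0 T) (hab : a < b) (hb : b < T)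
    (hη : 0 < η) :
    ∃ δ : ℝ, 0 < δ ∧ ∀ t t' : ℝ, 0 ≤ t → t ≤ a → t' ∈ Ico 0 T → cc γ t' ≤ cc γ t + δ →
      t' ≤ t + η ∧ t' ≤ b := by
  set f : ℝ → ℝ := fun t => cc γ (min (t + η) b) - cc γ t with hf
  have hmaps : ∀ t ∈ Icc 0 a, min (t + η) b ∈ Ico 0 T := by
    intro t ht
    exact ⟨le_min (by linarith [ht.1]) (by linarith [ha.1]), (min_le_right _ _).trans_lt hb⟩
  have hfc : ContinuousOn f (Icc 0 a) := by
    refine ContinuousOn.sub ?_ (h.cap_cont.mono fun t ht => ⟨ht.1, ht.2.trans_lt ha.2⟩)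
    refine h.cap_cont.comp ?_ hmaps
    fun_prop
  obtain ⟨t₀, ht₀, hmin⟩ := isCompact_Icc.exists_isMinOn ⟨a, ⟨ha.1, le_rfl⟩⟩ hfc
  have hpos : 0 < f t₀ := by
    have h1 : t₀ < min (t₀ + η) b := lt_min (by linarith) (by linarith [ht₀.2])
    have := h.cap_strict ht₀.1 h1 (hmaps t₀ ht₀).2
    simp only [hf]
    linarith
  refine ⟨f t₀ / 2, by positivity, ?_⟩
  intro t t' ht hta ht' hcc
  have h1 : f t₀ ≤ f t := hmin ⟨ht, hta⟩
  have h2 : cc γ t' < cc γ (min (t + η) b) := by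
    simp only [hf] at h1 hcc hpos
    linarith
  have h3 : t' < min (t + η) b := (h.strictMono.lt_iff_lt ht' (hmaps t ⟨ht, hta⟩)).mp h2
  exact ⟨h3.le.trans (min_le_left _ _), h3.le.trans (min_le_right _ _)⟩

/-- **The hulls of a simple curve form a Loewner chain.** -/
theorem chain (h : Crv γ T) {S : ℝ} (hS : 0 < S) (hsub : Ico 0 S ⊆ cc γ '' Ico 0 T) :
    Chain (drv γ T) (fun s => γ '' Icc 0 (tau γ T s)) (fun s => gg γ (tau γ T s)) S where
  pos := hS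
  hyd := fun s hs => h.hydro (h.tau_spec (hsub hs)).1
  zero := by
    have h1 : tau γ T 0 = 0 := by
      have := h.tau_cc (t := 0) ⟨le_rfl, h.pos⟩
      rwa [h.cap_zero] at this
    rw [h1]
    ext z
    simp only [mem_inter_iff, mem_empty_iff_false, iff_false, not_and]
    rintro hz ⟨s, hs, rfl⟩
    have : s = 0 := le_antisymm hs.2 hs.1
    rw [this] at hz
    have h3 : 0 < (γ 0).im := hz
    rw [h.start] at h3
    exact lt_irrefl _ h3
  mono := fun s s' h0 h1 h2 =>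
    h.sub (h.tau_mono (hsub ⟨h0, h1.trans_lt h2⟩) (hsub ⟨h0.trans h1, h2⟩) h1)
  cap := fun s hs => by
    have := (h.tau_spec (hsub hs)).2
    simp only [cc] at this
    linarith
  small := by
    intro S' hS' ε hε
    set S₀ := max S' 0 with hS₀
    have hS₀S : S₀ < S := max_lt hS' hS
    have hS₀0 : 0 ≤ S₀ := le_max_right _ _
    set S₁ := (S₀ + S) / 2 with hS₁
    have hS₁S : S₁ < S := by rw [hS₁]; linarith
    have hS₀₁ : S₀ < S₁ := by rw [hS₁]; linarith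
    obtain ⟨ha, hca⟩ := h.tau_spec (hsub ⟨hS₀0, hS₀S⟩)
    obtain ⟨hb, hcb⟩ := h.tau_spec (hsub ⟨hS₀0.trans hS₀₁.le, hS₁S⟩)
    set a := tau γ T S₀ with haa
    set b := tau γ T S₁ with hbb
    have hab : a < b := by
      rw [← h.strictMono.lt_iff_lt ha hb, hca, hcb]
      exact hS₀₁
    obtain ⟨η, hη, htip⟩ := h.tip_unif hb hε
    obtain ⟨δ, hδ, htau⟩ := h.tau_unif ha hab hb.2 hη
    refine ⟨δ, hδ, ?_⟩
    intro s s' h0 h1 h2 h3 h4
    have hs : s ∈ cc γ '' Ico 0 T := hsub ⟨h0, h2.trans_lt h4⟩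
    have hs' : s' ∈ cc γ '' Ico 0 T := hsub ⟨h0.trans h2, h4⟩
    obtain ⟨h5, h6⟩ := h.tau_spec hs
    obtain ⟨h7, h8⟩ := h.tau_spec hs'
    have h9 : tau γ T s ≤ a := h.tau_mono hs (hsub ⟨hS₀0, hS₀S⟩) (h1.trans (le_max_left _ _))
    obtain ⟨h10, h11⟩ := htau _ _ h5.1 h9 h7 (by rw [h6, h8]; exact h3)
    have h12 : tau γ T s ≤ tau γ T s' := h.tau_mono hs hs' h2
    change gg γ (tau γ T s) '' ((HH \ γ '' Icc 0 (tau γ T s)) ∩ γ '' Icc 0 (tau γ T s')) ⊆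
      closedBall (ww γ (tau γ T s) : ℂ) ε
    rw [h.incr_eq h5.1 h12 h7.2]
    rintro _ ⟨_, ⟨u, hu, rfl⟩, rfl⟩
    rw [mem_closedBall, dist_eq_norm]
    exact htip _ u h5.1 hu.1 (hu.2.trans h10) (hu.2.trans h11)

theorem exists_gt (h : Crv γ T) {t : ℝ} (ht : t ∈ Ico 0 T) :
    ∃ S : ℝ, cc γ t < S ∧ 0 < S ∧ Ico 0 S ⊆ cc γ '' Ico 0 T := by
  set t₂ := (t + T) / 2 with ht₂
  have h1 : t < t₂ := by rw [ht₂]; linarith [ht.2]
  have h2 : t₂ < T := by rw [ht₂]; linarith [ht.2]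
  have h3 := h.cap_strict ht.1 h1 h2
  refine ⟨cc γ t₂, h3, (h.cap_nonneg ht).trans_lt h3, ?_⟩
  exact Ico_subset_Icc_self.trans (h.Icc_sub' ⟨ht.1.trans h1.le, h2⟩)

/-- Loewner's equation along the curve -/
theorem sol (h : Crv γ T) {t : ℝ} (ht : t ∈ Ico 0 T) {z : ℂ} (hz : z ∈ HH \ γ '' Icc 0 t) :
    IsLoewnerSol (drv γ T) z (cc γ t) (fun s => gg γ (tau γ T s) z) := by
  obtain ⟨S, hS, hS0, hsub⟩ := h.exists_gt ht
  refine (h.chain hS0 hsub).sol ⟨h.cap_nonneg ht, hS⟩ ?_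
  rw [h.tau_cc ht]
  exact hz

theorem dom (h : Crv γ T) {t : ℝ} (ht : t ∈ Ico 0 T) :
    loewnerDomain (drv γ T) (cc γ t) = HH \ γ '' Icc 0 t := by
  obtain ⟨S, hS, hS0, hsub⟩ := h.exists_gt ht
  have := (h.chain hS0 hsub).dom (t := cc γ t) ⟨h.cap_nonneg ht, hS⟩
  rw [h.tau_cc ht] at this
  exact this

theorem drv_cont (h : Crv γ T) {S : ℝ} (hS : 0 < S) (hsub : Ico 0 S ⊆ cc γ '' Ico 0 T) :
    ContinuousOn (drv γ T) (Ico 0 S) := (h.chain hS hsub).cont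

theorem drv_cc (h : Crv γ T) {t : ℝ} (ht : t ∈ Ico 0 T) : drv γ T (cc γ t) = ww γ t := by
  rw [drv, h.tau_cc ht]

theorem drv_zero (h : Crv γ T) : (drv γ T 0 : ℂ) = γ 0 := by
  have h0 : (0 : ℝ) ∈ Ico 0 T := ⟨le_rfl, h.pos⟩
  have h1 : drv γ T 0 = ww γ 0 := by
    have := h.drv_cc h0
    rwa [h.cap_zero] at this
  rw [h1]
  have h2 := h.tip h0
  have h3 : Tendsto (fun u => gg γ 0 (γ u)) (𝓝[>] 0) (𝓝 (γ 0)) := by
    have h4 : Tendsto γ (𝓝[>] 0) (𝓝 (γ 0)) := (h.tendsto_right h0).mono_right nhdsWithin_le_nhds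
    refine h4.congr' ?_
    filter_upwards [Ioo_mem_nhdsGT h.pos] with u hu
    have h5 := h.sol h0 (h.mem_compl le_rfl hu.1 hu.2)
    have h6 : gg γ (tau γ T 0) (γ u) = γ u := h5.1
    have h7 : tau γ T 0 = 0 := by
      have := h.tau_cc h0
      rwa [h.cap_zero] at this
    rw [h7] at h6
    exact h6.symm
  exact tendsto_nhds_unique h2 h3

/-- the heights are controlled by the capacity -/
theorem sq_im_le (h : Crv γ T) {t : ℝ} (ht : t ∈ Ico 0 T) : (γ t).im ^ 2 ≤ 4 * cc γ t := by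
  rcases ht.1.eq_or_lt with h0 | h0
  · rw [← h0, h.start, h.cap_zero]
    norm_num
  -- for every `ε` there is `t' < t`
  have key : ∀ ε : ℝ, 0 < ε → (γ t).im ^ 2 ≤ 4 * cc γ t + ε ^ 2 := by
    intro ε hε
    obtain ⟨δ, hδ, htip⟩ := h.tip_unif ht hε
    set t' := max 0 (t - δ) with ht'
    have h1 : t' < t := max_lt h0 (by linarith)
    have h2 : 0 ≤ t' := le_max_left _ _
    have h3 : t ≤ t' + δ := by linarith [le_max_right 0 (t - δ)]
    have h4 := htip t' t h2 h1 h3 le_rfl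
    have hz : γ t ∈ HH \ γ '' Icc 0 t' := h.mem_compl h2 h1 ht.2
    have ht'T : t' ∈ Ico 0 T := ⟨h2, h1.trans ht.2⟩
    have hsol := h.sol ht'T hz
    have hcc0 := h.cap_nonneg ht'T
    -- the square of the height decreases at speed at most `4`
    have h5 : ‖(gg γ (tau γ T (cc γ t')) (γ t)).im ^ 2 - (gg γ (tau γ T 0) (γ t)).im ^ 2‖
        ≤ 4 * ‖cc γ t' - 0‖ := by
      refine (convex_Icc 0 (cc γ t')).norm_image_sub_le_of_norm_hasDerivWithin_le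
        (f := fun u => (gg γ (tau γ T u) (γ t)).im ^ 2)
        (f' := fun u => 2 * (gg γ (tau γ T u) (γ t)).im *
          (2 / (gg γ (tau γ T u) (γ t) - drv γ T u)).im)
        (fun u hu => ?_) ?_ ⟨le_rfl, hcc0⟩ ⟨hcc0, le_rfl⟩
      · have h6 := (hsol.2 u hu).2
        have h7 := Complex.imCLM.hasFDerivAt.comp_hasDerivWithinAt u h6
        exact (HasDerivWithinAt.fun_pow h7 2).congr_deriv (by simp)
      · intro u hu
        set Z := gg γ (tau γ T u) (γ t) - drv γ T u with hZ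
        have hpos := (hsol.2 u hu).1
        have him : (gg γ (tau γ T u) (γ t)).im = Z.im := by simp [hZ]
        have hZpos : 0 < Z.im := by rw [← him]; exact hpos
        have hZ0 : Z ≠ 0 := fun hc => by rw [hc] at hZpos; simp at hZpos
        have hn : 0 < ‖Z‖ := norm_pos_iff.mpr hZ0
        have e1 : (2 / Z).im = -(2 * Z.im / ‖Z‖ ^ 2) := by
          have e0 : (2 : ℂ) / Z = ((2 : ℝ) : ℂ) * Z⁻¹ := by
            rw [div_eq_mul_inv]
            norm_num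
          rw [e0, im_ofReal_mul, inv_im, normSq_eq_norm_sq]
          ring
        rw [him, e1]
        have h3 : Z.im ^ 2 ≤ ‖Z‖ ^ 2 := by
          rw [← sq_abs Z.im]
          exact pow_le_pow_left₀ (abs_nonneg _) (Complex.abs_im_le_norm _) 2
        have e : 2 * Z.im * (-(2 * Z.im / ‖Z‖ ^ 2)) = -(4 * (Z.im ^ 2 / ‖Z‖ ^ 2)) := by ring
        rw [e, norm_neg, Real.norm_eq_abs, abs_of_nonneg (by positivity)]
        have : Z.im ^ 2 / ‖Z‖ ^ 2 ≤ 1 := by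
          rw [div_le_one (by positivity)]
          exact h3
        linarith
    have e0 : gg γ (tau γ T 0) (γ t) = γ t := hsol.1
    rw [e0, h.tau_cc ht'T, sub_zero, Real.norm_eq_abs, Real.norm_eq_abs,
      abs_of_nonneg hcc0] at h5
    have h6 := (abs_le.mp h5).1
    have h7 : |(gg γ t' (γ t)).im| ≤ ε := by
      have := Complex.abs_im_le_norm (gg γ t' (γ t) - ww γ t')
      rw [sub_im, ofReal_im, sub_zero] at this
      exact this.trans h4
    have h8 : (gg γ t' (γ t)).im ^ 2 ≤ ε ^ 2 := by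
      rw [← sq_abs]
      exact pow_le_pow_left₀ (abs_nonneg _) h7 2
    have h9 := h.cap_strict h2 h1 ht.2
    linarith
  refine le_of_forall_pos_le_add fun ε hε => ?_
  have := key (Real.sqrt ε) (Real.sqrt_pos.mpr hε)
  rwa [Real.sq_sqrt hε.le] at this

/-- the driver, frozen after the capacity time of `t₁` -/
noncomputable def drvT (γ : ℝ → ℂ) (T t₁ : ℝ) (s : ℝ) : ℝ := drv γ T (min (max s 0) (cc γ t₁))

theorem continuous_drvT (h : Crv γ T) {t₁ : ℝ} (ht₁ : t₁ ∈ Ico 0 T) :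
    Continuous (drvT γ T t₁) := by
  obtain ⟨S, hS, hS0, hsub⟩ := h.exists_gt ht₁
  have h1 : Continuous fun s : ℝ => min (max s 0) (cc γ t₁) := by fun_prop
  refine (h.drv_cont hS0 hsub).comp_continuous h1 ?_
  intro s
  exact ⟨le_min (le_max_right _ _) (h.cap_nonneg ht₁), (min_le_right _ _).trans_lt hS⟩

theorem drvT_eq {t₁ s : ℝ} (h0 : 0 ≤ s) (h1 : s ≤ cc γ t₁) : drvT γ T t₁ s = drv γ T s := by
  rw [drvT, max_eq_left h0, min_eq_left h1]

/-- **A simple curve is generated by a continuous driver**, local form. -/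
theorem sgen_local (h : Crv γ T) {t₁ : ℝ} (ht₁ : t₁ ∈ Ioo 0 T) :
    Continuous (drvT γ T t₁) ∧ ARCX.SGen (drvT γ T t₁) γ (cc γ) t₁ := by
  have ht₁' : t₁ ∈ Ico 0 T := ⟨ht₁.1.le, ht₁.2⟩
  refine ⟨h.continuous_drvT ht₁', ?_⟩
  have hsub : Ico 0 t₁ ⊆ Ico 0 T := Ico_subset_Ico_right ht₁.2.le
  refine ⟨ht₁.1, h.cont.mono hsub, h.inj.mono hsub,
    fun t ht => h.im_pos t ⟨ht.1, ht.2.trans ht₁.2⟩, ?_, h.cap_cont.mono hsub,
    h.strictMono.mono hsub, h.cap_zero, ?_⟩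
  · rw [drvT_eq le_rfl (h.cap_nonneg ht₁'), h.drv_zero]
  · intro t ht
    have ht' := hsub ht
    have h1 : cc γ t ≤ cc γ t₁ := h.strictMono.monotoneOn ht' ht₁' ht.2.le
    rw [loewnerDomain_congr (W' := drv γ T) (fun s hs => drvT_eq hs.1 (hs.2.trans h1)), h.dom ht']
    rfl

/-- the driver on the whole line, if the capacity is unbounded -/
noncomputable def drvG (γ : ℝ → ℂ) (T : ℝ) (s : ℝ) : ℝ := drv γ T (max s 0)

theorem image_eq_Ici (h : Crv γ T) (hunb : ∀ M : ℝ, ∃ t ∈ Ico 0 T, M < cc γ t) :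
    cc γ '' Ico 0 T = Ici 0 := by
  apply Subset.antisymm
  · rintro _ ⟨t, ht, rfl⟩
    exact h.cap_nonneg ht
  · intro s hs
    obtain ⟨t, ht, hst⟩ := hunb s
    exact h.Icc_sub' ht ⟨hs, hst.le⟩

theorem unbounded_of_im (h : Crv γ T) (him : ∀ M : ℝ, ∃ t ∈ Ico 0 T, M < (γ t).im) :
    ∀ M : ℝ, ∃ t ∈ Ico 0 T, M < cc γ t := by
  intro M
  obtain ⟨t, ht, hM⟩ := him (|M| + 4)
  refine ⟨t, ht, ?_⟩
  have h1 := h.sq_im_le ht
  have h2 : 0 ≤ |M| := abs_nonneg M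
  have h3 : M ≤ |M| := le_abs_self M
  nlinarith

/-- **A simple curve is generated by a continuous driver**, global form. -/
theorem sgen_global (h : Crv γ T) (hunb : ∀ M : ℝ, ∃ t ∈ Ico 0 T, M < cc γ t) :
    Continuous (drvG γ T) ∧ ARCX.SGen (drvG γ T) γ (cc γ) T := by
  have himg := h.image_eq_Ici hunb
  have hcont : ContinuousOn (drv γ T) (Ici 0) := by
    intro s hs
    have hs0 : (0 : ℝ) ≤ s := hs
    have h1 : Ico 0 (s + 1) ⊆ cc γ '' Ico 0 T := by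
      rw [himg]
      exact fun u hu => hu.1
    have h2 := h.drv_cont (S := s + 1) (by linarith) h1 s ⟨hs0, by linarith⟩
    refine h2.mono_of_mem_nhdsWithin ?_
    have : Iio (s + 1) ∈ 𝓝 s := Iio_mem_nhds (by linarith)
    rw [show Ico 0 (s + 1) = Ici 0 ∩ Iio (s + 1) from rfl]
    exact inter_mem self_mem_nhdsWithin (mem_nhdsWithin_of_mem_nhds this)
  refine ⟨hcont.comp_continuous (by fun_prop) (fun s => mem_Ici.mpr (le_max_right _ _)), ?_⟩
  refine ⟨h.pos, h.cont, h.inj, h.im_pos, ?_, h.cap_cont, h.strictMono, h.cap_zero, ?_⟩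
  · rw [drvG, max_self, h.drv_zero]
  · intro t ht
    rw [loewnerDomain_congr (W' := drv γ T) (fun s hs => by rw [drvG, max_eq_left hs.1]), h.dom ht]
    rfl

end Crv

end Vale.Agent.P153.R2.L2
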