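import Vale.Agent.P153.R2.L2.Driver

/-!
# P153, SLE side, block L2: boundary values on the real line

For a simple curve `γ` in the half-plane, the map `g_t` has real boundary values at the real points
other than `γ 0`; they are larger than the driver on the right of `γ 0` and smaller on the left.
-/

open Complex Metric Set Filter Topology
open scoped Real ComplexConjugate
open Vale.Agent.P153.R2.L1

namespace Vale.Agent.P153.R2.L2

namespace Crv

variable {γ : ℝ → ℂ} {T : ℝ}

theorem real_mem (h : Crv γ T) {t : ℝ} (ht : t ∈ Ico 0 T) {x : ℝ} (hx : (x : ℂ) ∈ γ '' Icc 0 t) :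
    x = (γ 0).re := by
  obtain ⟨s, hs, he⟩ := hx
  rcases hs.1.eq_or_lt with h0 | h0
  · rw [← h0] at he
    rw [he]
    simp
  · have := h.im_pos s ⟨h0, hs.2.trans_lt ht.2⟩
    rw [he] at this
    simp at this

theorem hull_im (h : Crv γ T) {t : ℝ} (ht : t ∈ Ico 0 T) {z : ℂ} (hz : z ∈ γ '' Icc 0 t) :
    0 ≤ z.im := by
  obtain ⟨s, hs, rfl⟩ := hz
  rcases hs.1.eq_or_lt with h0 | h0
  · rw [← h0, h.start]
  · exact (h.im_pos s ⟨h0, hs.2.trans_lt ht.2⟩).le

theorem hull_compact (h : Crv γ T) {t : ℝ} (ht : t ∈ Ico 0 T) : IsCompact (γ '' Icc 0 t) :=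
  isCompact_Icc.image_of_continuousOn (h.cont.mono fun _ hs => ⟨hs.1, hs.2.trans_lt ht.2⟩)

/-- **Boundary values on the real line.** -/
theorem real_bd (h : Crv γ T) {t : ℝ} (ht : t ∈ Ico 0 T) {x : ℝ} (hx : x ≠ (γ 0).re) :
    ∃ y : ℝ, Tendsto (gg γ t) (𝓝[HH \ γ '' Icc 0 t] (x : ℂ)) (𝓝 (y : ℂ)) ∧
      0 < (x - (γ 0).re) * (y - ww γ t) := by
  have hyd := h.hydro ht
  have hcpt := h.hull_compact ht
  set K := γ '' Icc 0 t with hK
  set Ω : Set ℂ := {z | z ∉ K ∧ conj z ∉ K} with hΩ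
  have hΩo : IsOpen Ω := by
    have h1 : IsOpen Kᶜ := hcpt.isClosed.isOpen_compl
    exact h1.inter (h1.preimage Complex.continuous_conj)
  have hsym : ∀ z ∈ Ω, conj z ∈ Ω := by
    rintro z ⟨h1, h2⟩
    exact ⟨h2, by rwa [Complex.conj_conj]⟩
  have hup : ∀ z : ℂ, 0 < z.im → (z ∈ Ω ↔ z ∈ HH \ K) := by
    intro z hz
    constructor
    · rintro ⟨h1, -⟩
      exact ⟨hz, h1⟩
    · rintro ⟨-, h1⟩
      refine ⟨h1, fun hc => ?_⟩
      have := h.hull_im ht hc
      rw [conj_im] at this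
      linarith
  obtain ⟨G, hGd, hGg, hGs⟩ := reflect (F := gg γ t) (C := 1) one_pos hΩo hsym
    (hyd.diff.mono (by
      rintro z ⟨h1, h2⟩
      exact (hup z h2).1 h1))
    (fun z hz h0 => by
      have hz' := (hup z h0).1 hz
      have h1 : 0 < (gg γ t z).im := hyd.mapsTo hz'
      rw [abs_of_pos h1, one_mul]
      exact hyd.im_le hz')
  have hreal : ∀ y : ℝ, (y : ℂ) ∈ Ω → (G y).im = 0 := by
    intro y hy
    have h1 := hGs y hy
    rw [conj_ofReal] at h1
    have h2 := congrArg Complex.im h1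
    rw [conj_im] at h2
    linarith
  have hmemΩ : ∀ y : ℝ, y ≠ (γ 0).re → (y : ℂ) ∈ Ω := by
    intro y hy
    refine ⟨fun hc => hy (h.real_mem ht hc), fun hc => hy (h.real_mem ht ?_)⟩
    rwa [conj_ofReal] at hc
  have hcont : ContinuousOn G Ω := hGd.continuousOn
  -- the limit
  have hlim : ∀ y : ℝ, (y : ℂ) ∈ Ω → Tendsto (gg γ t) (𝓝[HH \ K] (y : ℂ)) (𝓝 (G y)) := by
    intro y hy
    have h1 : Tendsto G (𝓝[HH \ K] (y : ℂ)) (𝓝 (G y)) :=
      ((hcont y hy).continuousAt (hΩo.mem_nhds hy)).mono_left nhdsWithin_le_nhds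
    refine h1.congr' ?_
    filter_upwards [self_mem_nhdsWithin] with z hz
    exact hGg z ((hup z hz.1).2 hz) hz.1
  have hne : ∀ y : ℝ, (y : ℂ) ∈ Ω → (𝓝[HH \ K] (y : ℂ)).NeBot := by
    intro y hy
    rw [← mem_closure_iff_nhdsWithin_neBot, mem_closure_iff_nhds]
    intro U hU
    have h1 : U ∩ Ω ∈ 𝓝 (y : ℂ) := inter_mem hU (hΩo.mem_nhds hy)
    have h2 : Tendsto (fun s : ℝ => (y : ℂ) + s * I) (𝓝[>] 0) (𝓝 (y : ℂ)) := by
      have : Continuous fun s : ℝ => (y : ℂ) + s * I := by fun_prop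
      have h3 := this.tendsto 0
      simp only [ofReal_zero, zero_mul, add_zero] at h3
      exact h3.mono_left nhdsWithin_le_nhds
    obtain ⟨s, hs1, hs2⟩ := ((h2.eventually h1).and self_mem_nhdsWithin).exists
    have hs0 : 0 < ((y : ℂ) + s * I).im := by
      simpa using hs2
    exact ⟨_, hs1.1, (hup _ hs0).1 hs1.2⟩
  -- the driver is not a boundary value
  have hnot : ∀ y : ℝ, (y : ℂ) ∈ Ω → (G y).re ≠ ww γ t := by
    intro y hy hc
    have hGy : G y = (ww γ t : ℂ) := Complex.ext (by simpa using hc) (by simpa using hreal y hy)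
    have hA : AnalyticAt ℂ G y := hGd.analyticAt (hΩo.mem_nhds hy)
    rcases hA.eventually_constant_or_nhds_le_map_nhds with h1 | h1
    · have h2 : ∀ᶠ z in 𝓝[HH \ K] (y : ℂ), G z = G y := h1.filter_mono nhdsWithin_le_nhds
      have := hne y hy
      obtain ⟨z, hz1, hz2⟩ := (h2.and self_mem_nhdsWithin).exists
      have h3 : 0 < (gg γ t z).im := hyd.mapsTo hz2
      rw [← hGg z ((hup z hz2.1).2 hz2) hz2.1, hz1, hreal y hy] at h3
      exact lt_irrefl _ h3
    · obtain ⟨r, hr, hball⟩ := Metric.nhds_basis_closedBall.mem_iff.1 (hΩo.mem_nhds hy)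
      have h2 : G '' ball (y : ℂ) r ∈ 𝓝 (ww γ t : ℂ) := by
        rw [← hGy]
        exact h1 (image_mem_map (ball_mem_nhds _ hr))
      have h3 := (h.tip ht).eventually h2
      have h4 : ∀ᶠ u in 𝓝[>] t, γ u ∈ ball (y : ℂ) r := by
        filter_upwards [h3, Ioo_mem_nhdsGT ht.2] with u hu hu'
        obtain ⟨z, hz, hzu⟩ := hu
        have hm := h.mem_compl ht.1 hu'.1 hu'.2
        have hpos : 0 < (gg γ t (γ u)).im := hyd.mapsTo hm
        have hzΩ : z ∈ Ω := hball (ball_subset_closedBall hz)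
        have hz0 : 0 < z.im := by
          by_contra hcon
          push Not at hcon
          rcases hcon.lt_or_eq with h5 | h5
          · have h6 : 0 < (conj z).im := by rw [conj_im]; linarith
            have h7 := hsym z hzΩ
            have h8 : 0 < (gg γ t (conj z)).im := hyd.mapsTo ((hup _ h6).1 h7)
            rw [← hGg _ h7 h6, hGs z hzΩ, conj_im, hzu] at h8
            linarith
          · have h6 : z = (z.re : ℂ) := Complex.ext (by simp) (by simp [h5])
            have h7 := hreal z.re (by rw [← h6]; exact hzΩ)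
            rw [← h6, hzu] at h7
            linarith
        have h5 := (hup z hz0).1 hzΩ
        rw [hGg z hzΩ hz0] at hzu
        rw [← hyd.inj h5 hm hzu]
        exact hz
      have h5 : Tendsto γ (𝓝[>] t) (𝓝 (γ t)) :=
        (h.tendsto_right ht).mono_right nhdsWithin_le_nhds
      have h6 : γ t ∈ closedBall (y : ℂ) r :=
        isClosed_closedBall.mem_of_tendsto h5 (h4.mono fun u hu => ball_subset_closedBall hu)
      exact (hball h6).1 ⟨t, ⟨ht.1, le_rfl⟩, rfl⟩
  -- growth
  obtain ⟨R', hR'⟩ := (Metric.isBounded_iff_subset_closedBall (0 : ℂ)).mp hcpt.isBounded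
  set R := max R' 1 with hR
  have hR0 : 0 < R := lt_of_lt_of_le one_pos (le_max_right _ _)
  have hKR : K ⊆ closedBall ((0 : ℝ) : ℂ) R := by
    rw [ofReal_zero]
    exact hR'.trans (closedBall_subset_closedBall (le_max_left _ _))
  have hgrow : ∀ y : ℝ, (y : ℂ) ∈ Ω → |(G y).re - y| ≤ 6 * R := by
    intro y hy
    have := hne y hy
    have h1 : ‖G y - y‖ ≤ 6 * R := by
      have h2 : Tendsto (fun z => ‖gg γ t z - z‖) (𝓝[HH \ K] (y : ℂ)) (𝓝 ‖G y - y‖) :=
        ((hlim y hy).sub (tendsto_id.mono_left nhdsWithin_le_nhds)).norm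
      refine le_of_tendsto h2 ?_
      filter_upwards [self_mem_nhdsWithin] with z hz
      exact hyd.norm_sub_le hR0 hKR hz
    have h2 := Complex.abs_re_le_norm (G y - y)
    rw [sub_re, ofReal_re] at h2
    exact h2.trans h1
  have hcr : ContinuousOn (fun y : ℝ => (G y).re) {y | y ≠ (γ 0).re} := by
    refine Complex.continuous_re.comp_continuousOn (hcont.comp ?_ ?_)
    · exact Complex.continuous_ofReal.continuousOn
    · exact fun y hy => hmemΩ y hy
  refine ⟨(G x).re, ?_, ?_⟩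
  · have h1 := hlim x (hmemΩ x hx)
    have h2 : ((G x).re : ℂ) = G x :=
      Complex.ext (by simp) (by simpa using (hreal x (hmemΩ x hx)).symm)
    rwa [h2]
  · rcases lt_or_gt_of_ne hx with hx' | hx'
    · refine mul_pos_of_neg_of_neg (by linarith) ?_
      by_contra hcon
      push Not at hcon
      set X := min x (ww γ t - 6 * R - 1) with hX
      have hXx : X ≤ x := min_le_left _ _
      have hsub : Icc X x ⊆ {y | y ≠ (γ 0).re} := fun y hy => (hy.2.trans_lt hx').ne
      have h1 := intermediate_value_Icc hXx (hcr.mono hsub)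
      have h2 : (G X).re ≤ ww γ t := by
        have h3 := hgrow X (hmemΩ X (hsub ⟨le_rfl, hXx⟩))
        have h4 := (abs_le.1 h3).2
        have h5 : X ≤ ww γ t - 6 * R - 1 := min_le_right _ _
        linarith
      obtain ⟨y, hy, hyw⟩ := h1 ⟨h2, by linarith⟩
      exact hnot y (hmemΩ y (hsub hy)) hyw
    · refine mul_pos (by linarith) ?_
      by_contra hcon
      push Not at hcon
      set X := max x (ww γ t + 6 * R + 1) with hX
      have hXx : x ≤ X := le_max_left _ _
      have hsub : Icc x X ⊆ {y | y ≠ (γ 0).re} := fun y hy => (hx'.trans_le hy.1).ne'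
      have h1 := intermediate_value_Icc hXx (hcr.mono hsub)
      have h2 : ww γ t ≤ (G X).re := by
        have h3 := hgrow X (hmemΩ X (hsub ⟨hXx, le_rfl⟩))
        have h4 := (abs_le.1 h3).1
        have h5 : ww γ t + 6 * R + 1 ≤ X := le_max_right _ _
        linarith
      obtain ⟨y, hy, hyw⟩ := h1 ⟨by linarith, h2⟩
      exact hnot y (hmemΩ y (hsub hy)) hyw

end Crv

end Vale.Agent.P153.R2.L2
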