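import Vale.Agent.P153.R2.R1.Wolff
import Vale.Agent.P153.R2.L1.Comp
import Mathlib.MeasureTheory.Function.JacobianOneDim
import Mathlib.Analysis.Complex.OperatorNorm
import Mathlib.MeasureTheory.Measure.Lebesgue.VolumeOfBalls

/-!
# P153, block L2.A: a set near a boundary point has a small image

No planar topology is used: if the image of `O ∩ circle` has total length `≤ l`, then its
projections on the axes have measure `≤ l`, hence the projections of the image of a connected set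
inside the circle have length `≤ l` (otherwise a vertical or horizontal ray would join it to
infinity without meeting the image of the circle).
-/

open Set Topology Metric MeasureTheory Filter Bornology
open scoped ENNReal Real

namespace Vale.Agent.P153.R2.L2

open Vale.Agent.P153.R2.R1 Vale.Agent.P153.R2.L1

/-- `Re` and `Im` of the image of the circle without one point. -/
theorem volume_proj_le {O : Set ℂ} (hO : IsOpen O) {ψ : ℂ → ℂ} (hψ : DifferentiableOn ℂ ψ O)
    (c : ℂ) {ρ : ℝ} (hρ : 0 < ρ) (L : ℂ →L[ℝ] ℝ) (hL : ‖L‖ ≤ 1) :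
    volume (L '' (ψ '' (O ∩ sphere c ρ))) ≤ len O ψ c ρ := by
  set γ : ℝ → ℂ := fun θ => c + ρ * Complex.exp (θ * Complex.I) with hγ
  have hγd : ∀ θ : ℝ, HasDerivAt γ (ρ * (Complex.exp (θ * Complex.I) * Complex.I)) θ := by
    intro θ
    have h1 : HasDerivAt (fun θ : ℝ => (θ : ℂ) * Complex.I) Complex.I θ := by
      simpa using (Complex.ofRealCLM.hasDerivAt (x := θ)).mul_const Complex.I
    exact (h1.cexp.const_mul (ρ : ℂ)).const_add c
  have hγc : Continuous γ := by rw [hγ]; fun_prop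
  set S : Set ℝ := Ioo (-π) π ∩ γ ⁻¹' O with hS
  have hSo : IsOpen S := isOpen_Ioo.inter (hO.preimage hγc)
  set f : ℝ → ℝ := fun θ => L (ψ (γ θ)) with hf
  set f' : ℝ → ℝ := fun θ => L (deriv ψ (γ θ) * (ρ * (Complex.exp (θ * Complex.I) * Complex.I)))
    with hf'
  have hfd : ∀ θ ∈ S, HasDerivAt f (f' θ) θ := by
    intro θ hθ
    have h1 := (hψ.differentiableAt (hO.mem_nhds hθ.2)).hasDerivAt
    have h2 : HasDerivAt (fun θ => ψ (γ θ)) _ θ := h1.comp_of_eq θ (hγd θ) rfl
    exact L.hasFDerivAt.comp_hasDerivAt θ h2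
  -- the image is contained in the image of `S` and a point
  have hsub : L '' (ψ '' (O ∩ sphere c ρ)) ⊆ f '' S ∪ {L (ψ (c - ρ))} := by
    rintro _ ⟨_, ⟨z, ⟨hzO, hzs⟩, rfl⟩, rfl⟩
    rw [mem_sphere, dist_eq_norm] at hzs
    have hz : z = c + ρ * Complex.exp ((z - c).arg * Complex.I) := by
      have := Complex.norm_mul_exp_arg_mul_I (z - c)
      rw [hzs] at this
      rw [this]; ring
    rcases eq_or_ne (z - c).arg π with h | h
    · right
      rw [h, Complex.exp_pi_mul_I] at hz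
      rw [mem_singleton_iff, hz]
      congr 2
      ring
    · left
      refine ⟨(z - c).arg, ⟨⟨Complex.neg_pi_lt_arg _, lt_of_le_of_ne (Complex.arg_le_pi _) h⟩, ?_⟩,
        ?_⟩
      · rw [mem_preimage, hγ]
        simp only
        rw [← hz]
        exact hzO
      · rw [hf, hγ]
        simp only
        rw [← hz]
  calc volume (L '' (ψ '' (O ∩ sphere c ρ))) ≤ volume (f '' S ∪ {L (ψ (c - ρ))}) :=
        measure_mono hsub
    _ ≤ volume (f '' S) + volume {L (ψ (c - ρ))} := measure_union_le _ _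
    _ = volume (f '' S) := by rw [Real.volume_singleton, add_zero]
    _ ≤ ∫⁻ θ in S, ENNReal.ofReal |f' θ| := by
        have := addHaar_image_le_lintegral_abs_det_fderiv (volume : Measure ℝ) hSo.measurableSet
          (f := f) (f' := fun θ => ContinuousLinearMap.toSpanSingleton ℝ (f' θ))
          (fun θ hθ => (hfd θ hθ).hasFDerivAt.hasFDerivWithinAt)
        simpa only [ContinuousLinearMap.det_toSpanSingleton] using this
    _ ≤ ∫⁻ θ in S, ENNReal.ofReal ρ * dens O ψ (c + ρ * Complex.exp (θ * Complex.I)) := by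
        refine setLIntegral_mono' hSo.measurableSet fun θ hθ => ?_
        have h1 : dens O ψ (c + ρ * Complex.exp (θ * Complex.I)) =
            ‖deriv ψ (c + ρ * Complex.exp (θ * Complex.I))‖ₑ := by
          unfold dens
          exact indicator_of_mem (show c + ρ * Complex.exp (θ * Complex.I) ∈ O from hθ.2) _
        rw [h1, ← ofReal_norm, ← ENNReal.ofReal_mul hρ.le]
        apply ENNReal.ofReal_le_ofReal
        have h2 : |f' θ| ≤ ‖L‖ * ‖deriv ψ (γ θ) * (ρ * (Complex.exp (θ * Complex.I) * Complex.I))‖ :=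
          L.le_opNorm _
        have h3 : ‖deriv ψ (γ θ) * (ρ * (Complex.exp (θ * Complex.I) * Complex.I))‖ =
            ρ * ‖deriv ψ (γ θ)‖ := by
          rw [norm_mul, norm_mul, norm_mul, Complex.norm_exp_ofReal_mul_I, Complex.norm_I,
            Complex.norm_real, Real.norm_eq_abs, abs_of_pos hρ]
          ring
        rw [h3] at h2
        refine h2.trans ?_
        have : 0 ≤ ρ * ‖deriv ψ (γ θ)‖ := by positivity
        calc ‖L‖ * (ρ * ‖deriv ψ (γ θ)‖) ≤ 1 * (ρ * ‖deriv ψ (γ θ)‖) := by gcongr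
          _ = _ := by rw [one_mul]
    _ ≤ len O ψ c ρ := lintegral_mono_set inter_subset_left

/-- a conformal bijection onto the half-plane, with its inverse -/
structure ConfH (O : Set ℂ) (G F : ℂ → ℂ) : Prop where
  isOpen : IsOpen O
  diff : DifferentiableOn ℂ G O
  maps : ∀ z ∈ O, G z ∈ HH
  inv_mem : ∀ w ∈ HH, F w ∈ O
  right : ∀ w ∈ HH, G (F w) = w
  left : ∀ z ∈ O, F (G z) = z
  cont : ContinuousOn F HH

theorem ConfH.of_hydro {K : Set ℂ} {g : ℂ → ℂ} (h : IsHydro K g) : ConfH (HH \ K) g (inv K g) :=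
  ⟨h.isOpen, h.diff, fun _ hz => h.mapsTo hz, fun _ hw => h.inv_mem hw, fun _ hw => h.g_inv hw,
    fun _ hz => h.inv_g hz, h.inv_cont⟩

variable {O : Set ℂ} {G F : ℂ → ℂ}

/-- a ray from the image of a point inside the circle meets the image of the circle -/
theorem ConfH.ray_meets (h : ConfH O G F) {p : ℂ} {ρ : ℝ}
    {M : ℝ} (hM : ∀ w ∈ HH, M < ‖w‖ → F w ∉ closedBall p ρ) {z v : ℂ} (hz : z ∈ O ∩ ball p ρ)
    (hv : v ≠ 0) (hv0 : 0 ≤ v.im) : ∃ t : ℝ, 0 ≤ t ∧ G z + t * v ∈ G '' (O ∩ sphere p ρ) := by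
  by_contra hcon
  push Not at hcon
  have hray : ∀ t : ℝ, 0 ≤ t → G z + t * v ∈ HH := by
    intro t ht
    have h1 : 0 < (G z).im := h.maps z hz.1
    show 0 < (G z + t * v).im
    rw [Complex.add_im, Complex.im_ofReal_mul]
    have := mul_nonneg ht hv0
    linarith
  set q : ℝ → ℂ := fun t => F (G z + t * v) with hq
  have hqc : ContinuousOn q (Ici 0) := by
    refine h.cont.comp (by fun_prop) fun t ht => hray t ht
  have hqc2 : ContinuousOn (fun t => dist (q t) p) (Ici 0) := by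
    exact (continuous_id.dist continuous_const).comp_continuousOn hqc
  obtain ⟨t₁, ht₁, ht₁M⟩ : ∃ t₁ : ℝ, 0 ≤ t₁ ∧ M < ‖G z + t₁ * v‖ := by
    have hv1 : 0 < ‖v‖ := norm_pos_iff.2 hv
    refine ⟨(|M| + ‖G z‖ + 1) / ‖v‖, by positivity, ?_⟩
    have h1 : ‖((((|M| + ‖G z‖ + 1) / ‖v‖ : ℝ) : ℂ) * v)‖ = |M| + ‖G z‖ + 1 := by
      rw [norm_mul, Complex.norm_real, Real.norm_eq_abs, abs_of_nonneg (by positivity)]
      field_simp
    have h2 := norm_sub_le (G z + (((|M| + ‖G z‖ + 1) / ‖v‖ : ℝ) : ℂ) * v) (G z)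
    rw [add_sub_cancel_left, h1] at h2
    linarith [le_abs_self M]
  have hout : ρ < dist (q t₁) p := by
    have := hM _ (hray t₁ ht₁) ht₁M
    rwa [mem_closedBall, not_le] at this
  have hin : dist (q 0) p < ρ := by
    simp only [hq, Complex.ofReal_zero, zero_mul, add_zero, h.left z hz.1]
    exact hz.2
  obtain ⟨t, ht, hte⟩ := intermediate_value_Icc ht₁ (hqc2.mono Icc_subset_Ici_self)
    (⟨hin.le, hout.le⟩ : ρ ∈ Icc _ _)
  refine hcon t ht.1 ⟨q t, ⟨h.inv_mem _ (hray t ht.1), hte⟩, h.right _ (hray t ht.1)⟩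

/-- an interval longer than `l` contains a point outside a set of measure `≤ l` -/
theorem exists_notMem_of_volume {X : Set ℝ} {l a b : ℝ} (hX : volume X ≤ ENNReal.ofReal l)
    (hab : l < b - a) (hl : 0 ≤ l) : ∃ x ∈ Icc a b, x ∉ X := by
  by_contra hcon
  push Not at hcon
  have h1 : volume (Icc a b) ≤ volume X := measure_mono hcon
  rw [Real.volume_Icc] at h1
  have h2 := h1.trans hX
  rw [ENNReal.ofReal_le_ofReal_iff hl] at h2
  linarith

/-- **Small image lemma.** -/
theorem ConfH.small_image (h : ConfH O G F) {p : ℂ} {ρ : ℝ} (hρ : 0 < ρ)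
    {M : ℝ} (hM : ∀ w ∈ HH, M < ‖w‖ → F w ∉ closedBall p ρ) {l : ℝ} (hl : 0 ≤ l)
    (hlen : len O G p ρ ≤ ENNReal.ofReal l) {A : Set ℂ} (hA : IsPreconnected A)
    (hAO : A ⊆ O ∩ ball p ρ) {z z' : ℂ} (hz : z ∈ A) (hz' : z' ∈ A) :
    |(G z).re - (G z').re| ≤ l ∧ |(G z).im - (G z').im| ≤ l := by
  have hGc : ContinuousOn G A := h.diff.continuousOn.mono (hAO.trans inter_subset_left)
  have hvol : ∀ L : ℂ →L[ℝ] ℝ, ‖L‖ ≤ 1 →
      volume (L '' (G '' (O ∩ sphere p ρ))) ≤ ENNReal.ofReal l := fun L hL =>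
    (volume_proj_le h.isOpen h.diff p hρ L hL).trans hlen
  -- the general step
  have key : ∀ L : ℂ →L[ℝ] ℝ, ‖L‖ ≤ 1 → (∃ v : ℂ, v ≠ 0 ∧ 0 ≤ v.im ∧ L v = 0) →
      ∀ z ∈ A, ∀ z' ∈ A, L (G z') - L (G z) ≤ l := by
    rintro L hL ⟨v, hv, hv0, hLv⟩ z hz z' hz'
    by_contra hcon
    push Not at hcon
    obtain ⟨x, hx, hxn⟩ := exists_notMem_of_volume (hvol L hL) hcon hl
    have hpre : IsPreconnected ((fun z => L (G z)) '' A) :=
      hA.image _ (L.continuous.comp_continuousOn hGc)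
    obtain ⟨y, hy, hyx⟩ := hpre.ordConnected.out (mem_image_of_mem _ hz) (mem_image_of_mem _ hz') hx
    obtain ⟨t, -, u, hu, hut⟩ := h.ray_meets hM (hAO hy) hv hv0
    apply hxn
    refine ⟨G u, ⟨u, hu, rfl⟩, ?_⟩
    rw [hut, map_add]
    have : L ((t : ℂ) * v) = 0 := by
      have : (t : ℂ) * v = t • v := by simp
      rw [this, map_smul, hLv, smul_zero]
    rw [this, add_zero]
    exact hyx
  have hre : ‖Complex.reCLM‖ ≤ 1 := Complex.reCLM_norm.le
  have him : ‖Complex.imCLM‖ ≤ 1 := Complex.imCLM_norm.le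
  have kre := key Complex.reCLM hre ⟨Complex.I, Complex.I_ne_zero, by simp, by simp⟩
  have kim := key Complex.imCLM him ⟨1, one_ne_zero, by simp, by simp⟩
  constructor
  · rw [abs_le]
    have h1 := kre z hz z' hz'
    have h2 := kre z' hz' z hz
    simp only [Complex.reCLM_apply] at h1 h2
    constructor <;> linarith
  · rw [abs_le]
    have h1 := kim z hz z' hz'
    have h2 := kim z' hz' z hz
    simp only [Complex.imCLM_apply] at h1 h2
    constructor <;> linarith

theorem len_inter_ball {O : Set ℂ} {G : ℂ → ℂ} {p : ℂ} {ρ b : ℝ} (hρ : 0 < ρ) (hb : ρ < b) :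
    len (O ∩ ball p b) G p ρ = len O G p ρ := by
  unfold len
  congr 1
  ext θ
  congr 1
  have hmem : p + ρ * Complex.exp (θ * Complex.I) ∈ ball p b := by
    rw [mem_ball, dist_eq_norm, add_sub_cancel_left, norm_mul, Complex.norm_exp_ofReal_mul_I,
      mul_one, Complex.norm_real, Real.norm_eq_abs, abs_of_pos hρ]
    exact hb
  unfold dens
  by_cases hO : p + ρ * Complex.exp (θ * Complex.I) ∈ O
  · rw [indicator_of_mem (show _ ∈ O ∩ ball p b from ⟨hO, hmem⟩), indicator_of_mem hO]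
  · rw [indicator_of_notMem (fun hc => hO hc.1), indicator_of_notMem hO]

/-- **Small image lemma with the area bound**: `A` in `ball p a`, the image of `O ∩ ball p b` in a
ball of radius `N`; then the image of `A` has diameter at most `2πN / √log (b/a)`. -/
theorem ConfH.small_image_area (h : ConfH O G F) {p q : ℂ} {a b N : ℝ} (ha : 0 < a) (hab : a < b)
    (hN : ∀ z ∈ O ∩ ball p b, G z ∈ closedBall q N) {A : Set ℂ} (hA : IsPreconnected A)
    (hAO : A ⊆ O ∩ ball p a) {z z' : ℂ} (hz : z ∈ A) (hz' : z' ∈ A) :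
    ‖G z - G z'‖ ^ 2 ≤ 4 * π ^ 2 * N ^ 2 / Real.log (b / a) := by
  have hlog : 0 < Real.log (b / a) := Real.log_pos (by rwa [lt_div_iff₀ ha, one_mul])
  have hinj : InjOn G O := by
    intro x hx y hy hxy
    rw [← h.left x hx, ← h.left y hy, hxy]
  have hU : IsOpen (O ∩ ball p b) := h.isOpen.inter isOpen_ball
  have hN0 : 0 ≤ N := by
    have := hN z ⟨(hAO hz).1, ball_subset_ball hab.le (hAO hz).2⟩
    exact nonempty_closedBall.1 ⟨_, this⟩
  have hvol : volume (G '' (O ∩ ball p b)) ≤ ENNReal.ofReal (π * N ^ 2) := by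
    have h1 : G '' (O ∩ ball p b) ⊆ closedBall q N := by
      rintro _ ⟨u, hu, rfl⟩
      exact hN u hu
    refine (measure_mono h1).trans ?_
    rw [Complex.volume_closedBall]
    rw [ENNReal.ofReal_mul (by positivity), ENNReal.ofReal_pow hN0, mul_comm]
    gcongr
    rw [← NNReal.coe_real_pi, ENNReal.ofReal_coe_nnreal]
  have hstep : ∀ K : ℝ, 2 * π * (π * N ^ 2) < K * Real.log (b / a) → ‖G z - G z'‖ ^ 2 ≤ 2 * K := by
    intro K hK
    have hK0 : 0 < K := by
      by_contra hc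
      have h1 : K * Real.log (b / a) ≤ 0 := mul_nonpos_of_nonpos_of_nonneg (not_lt.1 hc) hlog.le
      have h2 : 0 ≤ 2 * π * (π * N ^ 2) := by positivity
      linarith
    obtain ⟨ρ, hρ, hlen⟩ := exists_short hU (h.diff.mono inter_subset_left)
      (hinj.mono inter_subset_left) (by positivity) hvol p ha hab hK
    have hρ0 : 0 < ρ := ha.trans hρ.1
    rw [len_inter_ball hρ0 hρ.2] at hlen
    have hlen' : len O G p ρ ≤ ENNReal.ofReal (Real.sqrt K) := by
      have h1 : ENNReal.ofReal K = ENNReal.ofReal (Real.sqrt K) ^ 2 := by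
        rw [← ENNReal.ofReal_pow (Real.sqrt_nonneg _), Real.sq_sqrt hK0.le]
      rw [h1] at hlen
      by_contra hc
      push Not at hc
      exact absurd (pow_le_pow_left₀ bot_le hc.le 2) (not_le.2 hlen)
    have hM : ∀ w ∈ HH, ‖q‖ + N < ‖w‖ → F w ∉ closedBall p ρ := by
      intro w hw hwn hc
      have h1 := hN (F w) ⟨h.inv_mem w hw, closedBall_subset_ball hρ.2 hc⟩
      rw [h.right w hw, mem_closedBall, dist_eq_norm] at h1
      have h2 : ‖w‖ ≤ ‖w - q‖ + ‖q‖ := by
        have := norm_add_le (w - q) q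
        rwa [sub_add_cancel] at this
      linarith
    obtain ⟨h3, h4⟩ := h.small_image hρ0 hM (Real.sqrt_nonneg K) hlen' hA
      (hAO.trans (inter_subset_inter_right _ (ball_subset_ball hρ.1.le))) hz hz'
    have h5 : ‖G z - G z'‖ ^ 2 = ((G z).re - (G z').re) ^ 2 + ((G z).im - (G z').im) ^ 2 := by
      rw [← Complex.normSq_eq_norm_sq, Complex.normSq_apply, Complex.sub_re, Complex.sub_im]
      ring
    have h6 : ((G z).re - (G z').re) ^ 2 ≤ K := by
      rw [← sq_abs, ← Real.sq_sqrt hK0.le]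
      exact pow_le_pow_left₀ (abs_nonneg _) h3 2
    have h7 : ((G z).im - (G z').im) ^ 2 ≤ K := by
      rw [← sq_abs, ← Real.sq_sqrt hK0.le]
      exact pow_le_pow_left₀ (abs_nonneg _) h4 2
    rw [h5]; linarith
  have h8 : 4 * π ^ 2 * N ^ 2 / Real.log (b / a) = 2 * (2 * π * (π * N ^ 2) / Real.log (b / a)) := by
    ring
  rw [h8]
  refine le_of_forall_pos_le_add fun ε hε => ?_
  have h9 := hstep (2 * π * (π * N ^ 2) / Real.log (b / a) + ε / 2) (by
    rw [add_mul, div_mul_cancel₀ _ hlog.ne']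
    have : 0 < ε / 2 * Real.log (b / a) := by positivity
    linarith)
  linarith

end Vale.Agent.P153.R2.L2
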