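import Vale.Agent.P153.R2.L1.Curve
import Vale.Agent.P153.R2.L1.Exist
import Vale.Agent.P153.R2.L1.Stmts
import Vale.Agent.P153.R2.L2.Small

/-!
# P153, SLE side, block L2.B: simple curves in the half-plane, capacity and tip
-/

open Complex Metric Set Filter Topology
open scoped Real ComplexConjugate
open Vale.Agent.P153.R2.L1

namespace Vale.Agent.P153.R2.L2

/-- a simple curve in the half-plane, started on the real line -/
structure Crv (γ : ℝ → ℂ) (T : ℝ) : Prop where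
  pos : 0 < T
  cont : ContinuousOn γ (Ico 0 T)
  inj : InjOn γ (Ico 0 T)
  start : (γ 0).im = 0
  im_pos : ∀ t ∈ Ioo 0 T, 0 < (γ t).im

/-- the normalised map of the curve up to time `t` -/
noncomputable def gg (γ : ℝ → ℂ) (t : ℝ) : ℂ → ℂ :=
  open Classical in if h : ∃ g, IsHydro (γ '' Icc 0 t) g then h.choose else id

/-- half of the capacity -/
noncomputable def cc (γ : ℝ → ℂ) (t : ℝ) : ℝ := hcap (gg γ t) / 2

/-- the image of the tip -/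
noncomputable def ww (γ : ℝ → ℂ) (t : ℝ) : ℝ := (limUnder (𝓝[>] t) (fun u => gg γ t (γ u))).re

namespace Crv

variable {γ : ℝ → ℂ} {T : ℝ}

theorem hydro (h : Crv γ T) {t : ℝ} (ht : t ∈ Ico 0 T) : IsHydro (γ '' Icc 0 t) (gg γ t) := by
  have hsub : Icc 0 t ⊆ Ico 0 T := fun s hs => ⟨hs.1, hs.2.trans_lt ht.2⟩
  have h1 : IsHull (γ '' Icc 0 t) := isHull_curve ht.1 (h.cont.mono hsub) (h.inj.mono hsub)
    h.start (fun s hs => h.im_pos s ⟨hs.1, hs.2.trans_lt ht.2⟩)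
  have h2 : ∃ g, IsHydro (γ '' Icc 0 t) g := exists_hydro h1
  unfold gg
  rw [dif_pos h2]
  exact h2.choose_spec

theorem mem_compl (h : Crv γ T) {t u : ℝ} (ht : 0 ≤ t) (htu : t < u) (hu : u < T) :
    γ u ∈ HH \ γ '' Icc 0 t := by
  refine ⟨h.im_pos u ⟨ht.trans_lt htu, hu⟩, ?_⟩
  rintro ⟨s, hs, he⟩
  have := h.inj ⟨hs.1, hs.2.trans_lt (htu.trans hu)⟩ ⟨ht.trans htu.le, hu⟩ he
  linarith [hs.2]

/-- the increments -/
theorem incr_eq (h : Crv γ T) {t t' : ℝ} (ht : 0 ≤ t) (_htt : t ≤ t') (ht' : t' < T) :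
    (HH \ γ '' Icc 0 t) ∩ γ '' Icc 0 t' = γ '' Ioc t t' := by
  ext z
  constructor
  · rintro ⟨⟨h1, h2⟩, ⟨s, hs, rfl⟩⟩
    refine ⟨s, ⟨?_, hs.2⟩, rfl⟩
    by_contra hcon
    exact h2 ⟨s, ⟨hs.1, not_lt.mp hcon⟩, rfl⟩
  · rintro ⟨s, hs, rfl⟩
    exact ⟨h.mem_compl ht hs.1 (hs.2.trans_lt ht'), ⟨s, ⟨ht.trans hs.1.le, hs.2⟩, rfl⟩⟩

theorem sub (_h : Crv γ T) {t t' : ℝ} (htt : t ≤ t') :
    HH ∩ γ '' Icc 0 t ⊆ γ '' Icc 0 t' := fun _ hz => image_mono (Icc_subset_Icc_right htt) hz.2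

/-- **Small oscillation** of `g_t` on the future of the curve. -/
theorem osc (h : Crv γ T) {t₁ : ℝ} (ht₁ : t₁ ∈ Ico 0 T) {ε : ℝ} (hε : 0 < ε) :
    ∃ δ : ℝ, 0 < δ ∧ ∀ t u u' : ℝ, 0 ≤ t → t < u → t < u' → u ≤ t + δ → u' ≤ t + δ →
      u ≤ t₁ → u' ≤ t₁ → ‖gg γ t (γ u) - gg γ t (γ u')‖ ≤ ε := by
  have hsub : Icc 0 t₁ ⊆ Ico 0 T := fun s hs => ⟨hs.1, hs.2.trans_lt ht₁.2⟩
  have hc1 : ContinuousOn γ (Icc 0 t₁) := h.cont.mono hsub
  have hcomp : IsCompact (γ '' Icc 0 t₁) := isCompact_Icc.image_of_continuousOn hc1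
  obtain ⟨R, hR⟩ := (Metric.isBounded_iff_subset_closedBall (0 : ℂ)).mp hcomp.isBounded
  set r := max R 1 with hr
  have hr0 : 0 < r := lt_of_lt_of_le one_pos (le_max_right _ _)
  have hKr : γ '' Icc 0 t₁ ⊆ closedBall ((0 : ℝ) : ℂ) r := by
    rw [ofReal_zero]
    exact hR.trans (closedBall_subset_closedBall (le_max_left _ _))
  set N := 7 * r + 1 with hN
  have hN0 : 0 < N := by positivity
  set L := 4 * π ^ 2 * N ^ 2 / ε ^ 2 with hL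
  have hL0 : 0 < L := by positivity
  set a := Real.exp (-L) with ha
  have ha0 : 0 < a := Real.exp_pos _
  have ha1 : a < 1 := by rw [ha, Real.exp_lt_one_iff]; linarith
  have huc := isCompact_Icc.uniformContinuousOn_of_continuous hc1
  rw [Metric.uniformContinuousOn_iff] at huc
  obtain ⟨δ, hδ, hd⟩ := huc a ha0
  refine ⟨δ / 2, by positivity, ?_⟩
  intro t u u' ht htu htu' hu hu' hu1 hu1'
  have htT : t ∈ Ico 0 T := ⟨ht, (htu.trans_le hu1).trans ht₁.2⟩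
  have htt₁ : t ≤ t₁ := htu.le.trans hu1
  have hyd := h.hydro htT
  have hKt : γ '' Icc 0 t ⊆ closedBall ((0 : ℝ) : ℂ) r :=
    (image_mono (Icc_subset_Icc_right htt₁)).trans hKr
  set v := max u u' with hv
  have hv1 : v ≤ t₁ := max_le hu1 hu1'
  have hv2 : v ≤ t + δ / 2 := max_le hu hu'
  set A := γ '' Ioc t v with hA
  have hApre : IsPreconnected A := by
    refine isPreconnected_Ioc.image γ (h.cont.mono ?_)
    intro s hs
    exact ⟨ht.trans hs.1.le, (hs.2.trans hv1).trans_lt ht₁.2⟩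
  have hAO : A ⊆ (HH \ γ '' Icc 0 t) ∩ ball (γ t) a := by
    rintro _ ⟨s, hs, rfl⟩
    refine ⟨h.mem_compl ht hs.1 ((hs.2.trans hv1).trans_lt ht₁.2), ?_⟩
    rw [mem_ball]
    refine hd s ⟨ht.trans hs.1.le, hs.2.trans hv1⟩ t ⟨ht, htt₁⟩ ?_
    rw [Real.dist_eq, abs_of_pos (by linarith [hs.1])]
    linarith [hs.2]
  have hbound : ∀ z ∈ (HH \ γ '' Icc 0 t) ∩ ball (γ t) 1, gg γ t z ∈ closedBall (0 : ℂ) N := by
    rintro z ⟨hz1, hz2⟩
    have h1 : ‖γ t‖ ≤ r := by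
      have : γ t ∈ closedBall ((0 : ℝ) : ℂ) r := hKr ⟨t, ⟨ht, htt₁⟩, rfl⟩
      simpa using this
    have h2 := hyd.norm_sub_le hr0 hKt hz1
    rw [mem_ball, dist_eq_norm] at hz2
    rw [mem_closedBall_zero_iff]
    calc ‖gg γ t z‖ = ‖(gg γ t z - z) + (z - γ t) + γ t‖ := by ring_nf
      _ ≤ ‖gg γ t z - z‖ + ‖z - γ t‖ + ‖γ t‖ := norm_add₃_le
      _ ≤ 6 * r + 1 + r := by gcongr
      _ = N := by rw [hN]; ring
  have h3 := (ConfH.of_hydro hyd).small_image_area ha0 ha1 hbound hApre hAO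
    (z := γ u) (z' := γ u') ⟨u, ⟨htu, le_max_left _ _⟩, rfl⟩ ⟨u', ⟨htu', le_max_right _ _⟩, rfl⟩
  have hlog : Real.log (1 / a) = L := by
    rw [one_div, Real.log_inv, ha, Real.log_exp]
    ring
  rw [hlog] at h3
  have h4 : 4 * π ^ 2 * N ^ 2 / L = ε ^ 2 := by
    rw [hL]
    field_simp
  rw [h4] at h3
  exact le_of_sq_le_sq h3 hε.le

theorem tendsto_right (h : Crv γ T) {t : ℝ} (ht : t ∈ Ico 0 T) :
    Tendsto γ (𝓝[>] t) (𝓝[HH \ γ '' Icc 0 t] (γ t)) := by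
  rw [tendsto_nhdsWithin_iff]
  constructor
  · have h1 := h.cont t ht
    have h2 : 𝓝[>] t ≤ 𝓝[Ico 0 T] t := by
      rw [← nhdsWithin_Ioo_eq_nhdsGT ht.2]
      exact nhdsWithin_mono _ (fun s hs => ⟨ht.1.trans hs.1.le, hs.2⟩)
    exact h1.mono_left h2
  · filter_upwards [Ioo_mem_nhdsGT ht.2] with u hu
    exact h.mem_compl ht.1 hu.1 hu.2

theorem tip_im (h : Crv γ T) {t : ℝ} (ht : t ∈ Ico 0 T) :
    Tendsto (fun u => (gg γ t (γ u)).im) (𝓝[>] t) (𝓝 0) := by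
  have h1 : γ t ∉ HH \ γ '' Icc 0 t := fun hc => hc.2 ⟨t, ⟨ht.1, le_rfl⟩, rfl⟩
  exact ((h.hydro ht).im_tendsto_zero h1).comp (h.tendsto_right ht)

/-- the tip is mapped to `ww γ t` -/
theorem tip (h : Crv γ T) {t : ℝ} (ht : t ∈ Ico 0 T) :
    Tendsto (fun u => gg γ t (γ u)) (𝓝[>] t) (𝓝 (ww γ t : ℂ)) := by
  set t₁ := (t + T) / 2 with ht₁
  have htt₁ : t < t₁ := by rw [ht₁]; linarith [ht.2]
  have ht₁T : t₁ < T := by rw [ht₁]; linarith [ht.2]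
  have hcau : Cauchy (map (fun u => gg γ t (γ u)) (𝓝[>] t)) := by
    rw [Metric.cauchy_iff]
    refine ⟨inferInstance, ?_⟩
    intro ε hε
    obtain ⟨δ, hδ, ho⟩ := h.osc (t₁ := t₁) ⟨ht.1.trans htt₁.le, ht₁T⟩ (ε := ε / 2) (by positivity)
    refine ⟨(fun u => gg γ t (γ u)) '' Ioo t (min (t + δ) t₁), image_mem_map ?_, ?_⟩
    · exact Ioo_mem_nhdsGT (lt_min (by linarith) htt₁)
    · rintro _ ⟨u, hu, rfl⟩ _ ⟨u', hu', rfl⟩
      rw [dist_eq_norm]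
      have hu2 := hu.2.le.trans (min_le_left _ _)
      have hu3 := hu.2.le.trans (min_le_right _ _)
      have hu2' := hu'.2.le.trans (min_le_left _ _)
      have hu3' := hu'.2.le.trans (min_le_right _ _)
      have := ho t u u' ht.1 hu.1 hu'.1 hu2 hu2' hu3 hu3'
      linarith
  obtain ⟨y, hy⟩ := CompleteSpace.complete hcau
  have hy' : Tendsto (fun u => gg γ t (γ u)) (𝓝[>] t) (𝓝 y) := hy
  have him : y.im = 0 :=
    tendsto_nhds_unique ((Complex.continuous_im.tendsto y).comp hy') (h.tip_im ht)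
  have hw : ww γ t = y.re := by rw [ww, hy'.limUnder_eq]
  have : y = (ww γ t : ℂ) := Complex.ext (by simp [hw]) (by simp [him])
  rwa [← this]

/-- uniform version of `tip` -/
theorem tip_unif (h : Crv γ T) {t₁ : ℝ} (ht₁ : t₁ ∈ Ico 0 T) {ε : ℝ} (hε : 0 < ε) :
    ∃ δ : ℝ, 0 < δ ∧ ∀ t u : ℝ, 0 ≤ t → t < u → u ≤ t + δ → u ≤ t₁ →
      ‖gg γ t (γ u) - ww γ t‖ ≤ ε := by
  obtain ⟨δ, hδ, ho⟩ := h.osc ht₁ hε
  refine ⟨δ, hδ, ?_⟩
  intro t u ht htu hu hu1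
  have htT : t ∈ Ico 0 T := ⟨ht, (htu.trans_le hu1).trans ht₁.2⟩
  have h1 : Tendsto (fun u' => ‖gg γ t (γ u) - gg γ t (γ u')‖) (𝓝[>] t)
      (𝓝 ‖gg γ t (γ u) - ww γ t‖) := (tendsto_const_nhds.sub (h.tip htT)).norm
  refine le_of_tendsto h1 ?_
  filter_upwards [Ioo_mem_nhdsGT htu] with u' hu'
  exact ho t u u' ht htu hu'.1 hu (hu'.2.le.trans hu) hu1 (hu'.2.le.trans hu1)

/-- the increments of the capacity -/
theorem cap_incr (h : Crv γ T) {t t' : ℝ} (ht : 0 ≤ t) (htt : t ≤ t') (ht' : t' < T) :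
    IsHydro (gg γ t '' (γ '' Ioc t t')) (gg γ t' ∘ inv (γ '' Icc 0 t) (gg γ t)) ∧
      2 * cc γ t' = 2 * cc γ t + hcap (gg γ t' ∘ inv (γ '' Icc 0 t) (gg γ t)) := by
  have h1 := s_comp _ _ _ _ (h.hydro (t := t') ⟨ht.trans htt, ht'⟩)
    (h.hydro (t := t) ⟨ht, htt.trans_lt ht'⟩) (h.sub htt)
  rw [h.incr_eq ht htt ht'] at h1
  refine ⟨h1.1, ?_⟩
  have h2 := h1.2
  simp only [cc]
  linarith

theorem cap_strict (h : Crv γ T) {t t' : ℝ} (ht : 0 ≤ t) (htt : t < t') (ht' : t' < T) :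
    cc γ t < cc γ t' := by
  obtain ⟨h1, h2⟩ := h.cap_incr ht htt.le ht'
  have hm : γ t' ∈ HH \ γ '' Icc 0 t := h.mem_compl ht htt ht'
  have h3 : gg γ t (γ t') ∈ HH := (h.hydro ⟨ht, htt.trans ht'⟩).mapsTo hm
  have h4 := s_cap_pos _ _ h1 ⟨gg γ t (γ t'), h3, ⟨γ t', ⟨t', ⟨htt, le_rfl⟩, rfl⟩, rfl⟩⟩
  linarith

theorem strictMono (h : Crv γ T) : StrictMonoOn (cc γ) (Ico 0 T) :=
  fun _ ht _ ht' htt => h.cap_strict ht.1 htt ht'.2

theorem cap_zero (h : Crv γ T) : cc γ 0 = 0 := by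
  have h1 := h.hydro (t := 0) ⟨le_rfl, h.pos⟩
  have h2 := s_cap_le _ _ 0 0 h1 le_rfl (by
    rintro z ⟨hz1, ⟨s, hs, rfl⟩⟩
    exfalso
    have : s = 0 := le_antisymm hs.2 hs.1
    rw [this] at hz1
    have h3 : 0 < (γ 0).im := hz1
    rw [h.start] at h3
    exact lt_irrefl _ h3)
  have h3 : hcap (gg γ 0) = 0 := le_antisymm (by simpa using h2.2) h2.1
  simp [cc, h3]

theorem cap_nonneg (h : Crv γ T) {t : ℝ} (ht : t ∈ Ico 0 T) : 0 ≤ cc γ t := by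
  have := (h.hydro ht).hcap_nonneg
  simp only [cc]
  linarith

/-- small increments of the capacity -/
theorem cap_unif (h : Crv γ T) {t₁ : ℝ} (ht₁ : t₁ ∈ Ico 0 T) {ε : ℝ} (hε : 0 < ε) :
    ∃ δ : ℝ, 0 < δ ∧ ∀ t t' : ℝ, 0 ≤ t → t ≤ t' → t' ≤ t + δ → t' ≤ t₁ →
      cc γ t' - cc γ t ≤ ε := by
  obtain ⟨δ, hδ, ho⟩ := h.tip_unif ht₁ (ε := Real.sqrt ε) (Real.sqrt_pos.mpr hε)
  refine ⟨δ, hδ, ?_⟩
  intro t t' ht htt ht' ht1
  obtain ⟨h1, h2⟩ := h.cap_incr ht htt (ht1.trans_lt ht₁.2)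
  have h3 := s_cap_le _ _ (ww γ t) (Real.sqrt ε) h1 (Real.sqrt_nonneg _) (by
    rintro _ ⟨-, ⟨_, ⟨u, hu, rfl⟩, rfl⟩⟩
    rw [mem_closedBall, dist_eq_norm]
    exact ho t u ht hu.1 (hu.2.trans ht') (hu.2.trans ht1))
  rw [Real.sq_sqrt hε.le] at h3
  linarith [h3.2]

theorem cap_cont (h : Crv γ T) : ContinuousOn (cc γ) (Ico 0 T) := by
  intro t ht
  set t₁ := (t + T) / 2 with ht₁
  have htt₁ : t < t₁ := by rw [ht₁]; linarith [ht.2]
  have ht₁T : t₁ < T := by rw [ht₁]; linarith [ht.2]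
  rw [ContinuousWithinAt, Metric.tendsto_nhds]
  intro ε hε
  obtain ⟨δ, hδ, hc⟩ := h.cap_unif (t₁ := t₁) ⟨ht.1.trans htt₁.le, ht₁T⟩ (ε := ε / 2) (by positivity)
  have h0 : 0 < min δ (t₁ - t) := lt_min hδ (by linarith)
  filter_upwards [mem_nhdsWithin_of_mem_nhds (Metric.ball_mem_nhds t h0), self_mem_nhdsWithin]
    with u hu huT
  rw [mem_ball, Real.dist_eq] at hu
  have hu1 : |u - t| < δ := hu.trans_le (min_le_left _ _)
  have hu2 : |u - t| < t₁ - t := hu.trans_le (min_le_right _ _)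
  rw [abs_lt] at hu1 hu2
  rw [Real.dist_eq]
  rcases le_total t u with h1 | h1
  · have h2 := hc t u ht.1 h1 (by linarith) (by linarith)
    have h3 := h.strictMono.monotoneOn ht huT h1
    rw [abs_of_nonneg (by linarith)]
    linarith
  · have h2 := hc u t huT.1 h1 (by linarith) htt₁.le
    have h3 := h.strictMono.monotoneOn huT ht h1
    rw [abs_of_nonpos (by linarith)]
    linarith

end Crv

end Vale.Agent.P153.R2.L2
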