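import Vale.Agent.P153.R2.L2.Chain
import Vale.Agent.P153.R2.L2.Small
import Vale.Agent.P153.R2.L1.Curve
import Vale.Agent.P153.R2.L1.Exist
import Vale.Agent.P153.R2.ARCX.Defs

/-!
# P153, block L2.B: the Loewner chain of a simple curve in the half-plane

`SCurve γ T`: `γ : [0,T) → ℂ` is a simple curve in the half-plane which starts on the real line.
`G γ t` is the hydrodynamic map of `HH \ γ [0,t]`, `cap γ t` half of its capacity and `drv γ t` the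
image of the tip.
-/

open Complex Metric Set Filter Topology
open scoped Real ComplexConjugate
open Vale.Agent.P153.R2 Vale.Agent.P153.R2.L1 Vale.Agent.P153.R2.L2 Vale.Agent.P164

namespace Vale.Agent.P153.R2.L2G

/-- a simple curve in the half-plane which starts on the real line -/
structure SCurve (γ : ℝ → ℂ) (T : ℝ) : Prop where
  pos : 0 < T
  cont : ContinuousOn γ (Ico 0 T)
  inj : InjOn γ (Ico 0 T)
  im_zero : (γ 0).im = 0
  im_pos : ∀ t ∈ Ioo 0 T, 0 < (γ t).im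

open scoped Classical in
/-- the hydrodynamic map of `HH \ γ [0,t]` -/
noncomputable def G (γ : ℝ → ℂ) (t : ℝ) : ℂ → ℂ :=
  if h : ∃ g, IsHydro (γ '' Icc 0 t) g then h.choose else id

/-- half of the capacity of `γ [0,t]` -/
noncomputable def cap (γ : ℝ → ℂ) (t : ℝ) : ℝ := hcap (G γ t) / 2

/-- the image of the tip -/
noncomputable def drv (γ : ℝ → ℂ) (t : ℝ) : ℝ := limUnder (𝓝[>] t) fun u => (G γ t (γ u)).re

namespace SCurve

variable {γ : ℝ → ℂ} {T : ℝ}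

theorem isHull (h : SCurve γ T) {t : ℝ} (ht : t ∈ Ico 0 T) : IsHull (γ '' Icc 0 t) := by
  have hsub : Icc 0 t ⊆ Ico 0 T := fun s hs => ⟨hs.1, hs.2.trans_lt ht.2⟩
  exact isHull_curve ht.1 (h.cont.mono hsub) (h.inj.mono hsub) h.im_zero
    fun s hs => h.im_pos s ⟨hs.1, hs.2.trans_lt ht.2⟩

theorem hyd (h : SCurve γ T) {t : ℝ} (ht : t ∈ Ico 0 T) : IsHydro (γ '' Icc 0 t) (G γ t) := by
  have he : ∃ g, IsHydro (γ '' Icc 0 t) g := exists_hydro (h.isHull ht)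
  rw [G, dif_pos he]
  exact he.choose_spec

theorem notMem_HH_zero (h : SCurve γ T) : γ 0 ∉ HH := by
  rw [mem_HH, h.im_zero]; exact lt_irrefl 0

/-- the part of the curve which is not yet drawn -/
theorem mem_dom (h : SCurve γ T) {s u : ℝ} (hs : 0 ≤ s) (hsu : s < u) (hu : u < T) :
    γ u ∈ HH \ γ '' Icc 0 s := by
  refine ⟨h.im_pos u ⟨hs.trans_lt hsu, hu⟩, ?_⟩
  rintro ⟨v, hv, hvu⟩
  have := h.inj ⟨hv.1, by linarith [hv.2]⟩ ⟨by linarith, hu⟩ hvu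
  linarith [hv.2]

theorem incr_eq (h : SCurve γ T) {s t : ℝ} (hs : 0 ≤ s) (_hst : s ≤ t) (ht : t < T) :
    (HH \ γ '' Icc 0 s) ∩ γ '' Icc 0 t = γ '' Ioc s t := by
  apply Subset.antisymm
  · rintro _ ⟨h1, ⟨u, hu, rfl⟩⟩
    refine ⟨u, ⟨?_, hu.2⟩, rfl⟩
    by_contra hcon
    exact h1.2 ⟨u, ⟨hu.1, not_lt.1 hcon⟩, rfl⟩
  · rintro _ ⟨u, hu, rfl⟩
    exact ⟨h.mem_dom hs hu.1 (hu.2.trans_lt ht), ⟨u, ⟨hs.trans hu.1.le, hu.2⟩, rfl⟩⟩

/-- **modulus of continuity**: the image of a short piece of the curve is small -/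
theorem osc (h : SCurve γ T) {T' : ℝ} (hT' : T' ∈ Ico 0 T) {ε : ℝ} (hε : 0 < ε) :
    ∃ δ : ℝ, 0 < δ ∧ ∀ s ∈ Icc 0 T', ∀ u ∈ Ioc s (s + δ), u ≤ T' → ∀ v ∈ Ioc s (s + δ), v ≤ T' →
      ‖G γ s (γ u) - G γ s (γ v)‖ ≤ ε := by
  have hsub : Icc 0 T' ⊆ Ico 0 T := fun s hs => ⟨hs.1, hs.2.trans_lt hT'.2⟩
  have hc : ContinuousOn γ (Icc 0 T') := h.cont.mono hsub
  obtain ⟨R, hR0, hR⟩ : ∃ R : ℝ, 0 < R ∧ γ '' Icc 0 T' ⊆ closedBall ((0 : ℝ) : ℂ) R := by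
    obtain ⟨R, hR⟩ := (isCompact_Icc.image_of_continuousOn hc).isBounded.subset_closedBall
      ((0 : ℝ) : ℂ)
    exact ⟨|R| + 1, by positivity, hR.trans (closedBall_subset_closedBall
      (by linarith [le_abs_self R]))⟩
  set N : ℝ := 9 * R + 1 with hN
  -- choice of the inner radius
  obtain ⟨a, ha0, ha1, ha⟩ : ∃ a : ℝ, 0 < a ∧ a < 1 ∧
      4 * π ^ 2 * N ^ 2 / Real.log (1 / a) ≤ ε ^ 2 := by
    set L : ℝ := 4 * π ^ 2 * N ^ 2 / ε ^ 2 + 1 with hL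
    have hL0 : 0 < L := by positivity
    refine ⟨Real.exp (-L), Real.exp_pos _, (Real.exp_lt_exp.2 (by linarith : -L < 0)).trans_eq Real.exp_zero, ?_⟩
    rw [one_div, ← Real.exp_neg, neg_neg, Real.log_exp, div_le_iff₀ hL0, hL, mul_add,
      mul_div_cancel₀ _ (by positivity)]
    have : 0 < ε ^ 2 := by positivity
    linarith
  obtain ⟨δ, hδ, hδu⟩ := Metric.uniformContinuousOn_iff.1
    (isCompact_Icc.uniformContinuousOn_of_continuous hc) a ha0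
  refine ⟨δ / 2, by positivity, ?_⟩
  intro s hs u hu huT v hv hvT
  have hsT : s ∈ Ico 0 T := hsub hs
  have hy := h.hyd hsT
  have hKR : HH ∩ γ '' Icc 0 s ⊆ closedBall ((0 : ℝ) : ℂ) R := by
    refine inter_subset_right.trans ((image_mono ?_).trans hR)
    exact Icc_subset_Icc_right hs.2
  have hps : ‖γ s‖ ≤ R := by
    have := hR ⟨s, hs, rfl⟩
    simpa using this
  have hbd : ∀ z ∈ (HH \ γ '' Icc 0 s) ∩ ball (γ s) 1, G γ s z ∈ closedBall (0 : ℂ) N := by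
    intro z hz
    have h1 := s_disp _ _ 0 R hy hR0.le hKR z hz.1
    have h2 : ‖z‖ ≤ R + 1 := by
      have h3 := hz.2
      rw [mem_ball, dist_eq_norm] at h3
      have h4 := norm_add_le (z - γ s) (γ s)
      rw [sub_add_cancel] at h4
      linarith
    rw [mem_closedBall_zero_iff, hN]
    have h5 := norm_add_le (G γ s z - z) z
    rw [sub_add_cancel] at h5
    linarith
  have hA : IsPreconnected (γ '' Ioc s (max u v)) := by
    refine isPreconnected_Ioc.image _ (hc.mono ?_)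
    exact fun x hx => ⟨hs.1.trans hx.1.le, hx.2.trans (max_le huT hvT)⟩
  have hAO : γ '' Ioc s (max u v) ⊆ (HH \ γ '' Icc 0 s) ∩ ball (γ s) a := by
    rintro _ ⟨x, hx, rfl⟩
    have hxT : x ≤ T' := hx.2.trans (max_le huT hvT)
    refine ⟨h.mem_dom hs.1 hx.1 (hxT.trans_lt hT'.2), ?_⟩
    rw [mem_ball]
    refine hδu x ⟨hs.1.trans hx.1.le, hxT⟩ s hs ?_
    rw [Real.dist_eq, abs_of_pos (by linarith [hx.1])]
    have := hx.2.trans (max_le hu.2 hv.2)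
    linarith
  have key := (ConfH.of_hydro hy).small_image_area (q := 0) ha0 ha1 hbd hA hAO
    ⟨u, ⟨hu.1, le_max_left _ _⟩, rfl⟩ ⟨v, ⟨hv.1, le_max_right _ _⟩, rfl⟩
  exact (sq_le_sq₀ (norm_nonneg _) hε.le).1 (key.trans ha)

/-- the tip has an image -/
theorem tendsto_tip (h : SCurve γ T) {s : ℝ} (hs : s ∈ Ico 0 T) :
    Tendsto (fun u => G γ s (γ u)) (𝓝[>] s) (𝓝 (drv γ s : ℂ)) := by
  have hy := h.hyd hs
  set T' := (s + T) / 2 with hT'
  have hsT' : s < T' := by linarith [hs.2]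
  have hT'T : T' < T := by linarith [hs.2]
  have hT'm : T' ∈ Ico 0 T := ⟨hs.1.trans hsT'.le, hT'T⟩
  -- Cauchy
  have hcau : Cauchy (map (fun u => G γ s (γ u)) (𝓝[>] s)) := by
    rw [Metric.cauchy_iff]
    refine ⟨inferInstance, fun ε hε => ?_⟩
    obtain ⟨δ, hδ, hd⟩ := h.osc hT'm (half_pos hε)
    set m := min (s + δ) T' with hm
    have hsm : s < m := lt_min (by linarith) hsT'
    refine ⟨(fun u => G γ s (γ u)) '' Ioc s m, image_mem_map (Ioc_mem_nhdsGT hsm), ?_⟩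
    rintro _ ⟨u, hu, rfl⟩ _ ⟨v, hv, rfl⟩
    rw [dist_eq_norm]
    have := hd s ⟨hs.1, hsT'.le⟩ u ⟨hu.1, hu.2.trans (min_le_left _ _)⟩
      (hu.2.trans (min_le_right _ _)) v ⟨hv.1, hv.2.trans (min_le_left _ _)⟩
      (hv.2.trans (min_le_right _ _))
    linarith
  obtain ⟨L, hL⟩ := CompleteSpace.complete hcau
  have hL' : Tendsto (fun u => G γ s (γ u)) (𝓝[>] s) (𝓝 L) := hL
  -- the limit is real
  have hγs : γ s ∉ HH \ γ '' Icc 0 s := fun hc => hc.2 ⟨s, ⟨hs.1, le_rfl⟩, rfl⟩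
  have h1 := hy.im_tendsto_zero hγs
  have h2 : Tendsto γ (𝓝[>] s) (𝓝[HH \ γ '' Icc 0 s] (γ s)) := by
    refine tendsto_nhdsWithin_iff.2 ⟨?_, ?_⟩
    · have hc := h.cont s hs
      refine hc.mono_left ?_
      refine nhdsWithin_le_iff.2 ?_
      refine mem_of_superset (Ioo_mem_nhdsGT hs.2) fun x hx => ⟨hs.1.trans hx.1.le, hx.2⟩
    · filter_upwards [Ioo_mem_nhdsGT hs.2] with x hx
      exact h.mem_dom hs.1 hx.1 hx.2
  have h3 : L.im = 0 :=
    tendsto_nhds_unique ((continuous_im.tendsto L).comp hL') (h1.comp h2)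
  have h4 : drv γ s = L.re := ((continuous_re.tendsto L).comp hL').limUnder_eq
  have h5 : (drv γ s : ℂ) = L := by
    apply Complex.ext
    · rw [ofReal_re, h4]
    · rw [ofReal_im, h3]
  rw [h5]
  exact hL'

/-- the increments are small and close to the image of the tip -/
theorem small (h : SCurve γ T) {T' : ℝ} (hT' : T' ∈ Ico 0 T) {ε : ℝ} (hε : 0 < ε) :
    ∃ δ : ℝ, 0 < δ ∧ ∀ s ∈ Icc 0 T', ∀ t, s ≤ t → t ≤ s + δ → t ≤ T' →
      G γ s '' ((HH \ γ '' Icc 0 s) ∩ γ '' Icc 0 t) ⊆ closedBall (drv γ s : ℂ) ε := by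
  obtain ⟨δ, hδ, hd⟩ := h.osc hT' hε
  refine ⟨δ, hδ, fun s hs t hst htδ htT => ?_⟩
  rw [h.incr_eq hs.1 hst (htT.trans_lt hT'.2)]
  rintro _ ⟨_, ⟨u, hu, rfl⟩, rfl⟩
  have hsT : s ∈ Ico 0 T := ⟨hs.1, hs.2.trans_lt hT'.2⟩
  have h1 := (tendsto_const_nhds (x := G γ s (γ u))).sub (h.tendsto_tip hsT)
  rw [mem_closedBall, dist_eq_norm]
  refine le_of_tendsto h1.norm ?_
  have hst' : s < t := hu.1.trans_le hu.2
  filter_upwards [Ioo_mem_nhdsGT hst'] with v hv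
  exact hd s hs u ⟨hu.1, hu.2.trans htδ⟩ (hu.2.trans htT) v ⟨hv.1, hv.2.le.trans htδ⟩
    (hv.2.le.trans htT)

theorem mono (_h : SCurve γ T) {s t : ℝ} (hst : s ≤ t) :
    HH ∩ γ '' Icc 0 s ⊆ γ '' Icc 0 t :=
  inter_subset_right.trans (image_mono (Icc_subset_Icc_right hst))

theorem comp (h : SCurve γ T) {s t : ℝ} (hs : 0 ≤ s) (hst : s ≤ t) (ht : t < T) :
    IsHydro (G γ s '' ((HH \ γ '' Icc 0 s) ∩ γ '' Icc 0 t)) (G γ t ∘ inv (γ '' Icc 0 s) (G γ s)) ∧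
      2 * (cap γ t - cap γ s) = hcap (G γ t ∘ inv (γ '' Icc 0 s) (G γ s)) := by
  obtain ⟨h1, h2⟩ := s_comp _ _ _ _ (h.hyd ⟨hs.trans hst, ht⟩) (h.hyd ⟨hs, hst.trans_lt ht⟩)
    (h.mono hst)
  refine ⟨h1, ?_⟩
  rw [cap, cap, h2]
  ring

theorem cap_lt (h : SCurve γ T) {s t : ℝ} (hs : 0 ≤ s) (hst : s < t) (ht : t < T) :
    cap γ s < cap γ t := by
  obtain ⟨h1, h2⟩ := h.comp hs hst.le ht
  have h3 := s_cap_pos _ _ h1 (by
    rw [h.incr_eq hs hst.le ht]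
    refine ⟨G γ s (γ t), (h.hyd ⟨hs, hst.trans ht⟩).mapsTo (h.mem_dom hs hst ht),
      ⟨γ t, ⟨t, ⟨hst, le_rfl⟩, rfl⟩, rfl⟩⟩)
  linarith

theorem cap_strictMono (h : SCurve γ T) : StrictMonoOn (cap γ) (Ico 0 T) :=
  fun _ hs _ ht hst => h.cap_lt hs.1 hst ht.2

theorem cap_sub_le (h : SCurve γ T) {s t x₀ r : ℝ} (hs : 0 ≤ s) (hst : s ≤ t) (ht : t < T)
    (hr : 0 ≤ r)
    (hsub : G γ s '' ((HH \ γ '' Icc 0 s) ∩ γ '' Icc 0 t) ⊆ closedBall (x₀ : ℂ) r) :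
    cap γ t - cap γ s ≤ r ^ 2 / 2 := by
  obtain ⟨h1, h2⟩ := h.comp hs hst ht
  have h3 := (s_cap_le _ _ x₀ r h1 hr (inter_subset_right.trans hsub)).2
  linarith

theorem cap_cont (h : SCurve γ T) : ContinuousOn (cap γ) (Ico 0 T) := by
  intro s hs
  rw [ContinuousWithinAt, Metric.tendsto_nhds]
  intro ε hε
  set T' := (s + T) / 2 with hT'
  have hsT' : s < T' := by linarith [hs.2]
  have hT'T : T' < T := by linarith [hs.2]
  have hT'm : T' ∈ Ico 0 T := ⟨hs.1.trans hsT'.le, hT'T⟩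
  obtain ⟨δ, hδ, hd⟩ := h.small hT'm (ε := √ε) (Real.sqrt_pos.2 hε)
  have hstep : ∀ a b : ℝ, 0 ≤ a → a ≤ b → b ≤ a + δ → b ≤ T' → |cap γ b - cap γ a| < ε := by
    intro a b ha hab hb hbT
    have h1 := h.cap_sub_le ha hab (hbT.trans_lt hT'T) (Real.sqrt_nonneg _)
      (hd a ⟨ha, hab.trans hbT⟩ b hab hb hbT)
    rw [Real.sq_sqrt hε.le] at h1
    have h2 : cap γ a ≤ cap γ b := by
      rcases hab.eq_or_lt with h3 | h3
      · rw [h3]
      · exact (h.cap_lt ha h3 (hbT.trans_lt hT'T)).le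
    rw [abs_of_nonneg (by linarith)]
    linarith
  have hev : ∀ᶠ t in 𝓝[Ico 0 T] s, |t - s| < min δ (T' - s) := by
    have : ∀ᶠ t in 𝓝 s, |t - s| < min δ (T' - s) :=
      Metric.ball_mem_nhds s (lt_min hδ (by linarith))
    exact this.filter_mono nhdsWithin_le_nhds
  filter_upwards [hev, self_mem_nhdsWithin] with t ht htT
  rw [Real.dist_eq]
  have ht1 := abs_lt.1 (ht.trans_le (min_le_left _ _))
  have ht2 := abs_lt.1 (ht.trans_le (min_le_right _ _))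
  rcases le_total s t with h3 | h3
  · exact hstep s t hs.1 h3 (by linarith) (by linarith)
  · rw [abs_sub_comm]
    exact hstep t s htT.1 h3 (by linarith) hsT'.le

theorem image_zero (h : SCurve γ T) : HH ∩ γ '' Icc 0 0 = ∅ := by
  rw [Icc_self, image_singleton]
  ext z
  simp only [mem_inter_iff, mem_singleton_iff, mem_empty_iff_false, iff_false, not_and]
  rintro hz rfl
  exact h.notMem_HH_zero hz

theorem cap_zero (h : SCurve γ T) : cap γ 0 = 0 := by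
  have h1 := s_cap_le _ _ 0 0 (h.hyd ⟨le_rfl, h.pos⟩) le_rfl (by rw [h.image_zero]; simp)
  rw [cap]
  linarith [h1.1, h1.2]

theorem G_zero (h : SCurve γ T) {z : ℂ} (hz : z ∈ HH) : G γ 0 z = z := by
  have h0 := h.hyd ⟨le_rfl, h.pos⟩
  have h1 : HH \ γ '' Icc 0 0 = HH \ ∅ := by
    rw [sdiff_empty]
    ext w
    constructor
    · exact fun hw => hw.1
    · intro hw
      refine ⟨hw, fun hc => ?_⟩
      have : w ∈ HH ∩ γ '' Icc 0 0 := ⟨hw, hc⟩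
      rw [h.image_zero] at this
      exact this
  exact (h0.congr_set Bornology.isBounded_empty h1).eq_id_of_empty hz

theorem drv_zero (h : SCurve γ T) : (drv γ 0 : ℂ) = γ 0 := by
  have h1 := h.tendsto_tip ⟨le_rfl, h.pos⟩
  have h2 : Tendsto γ (𝓝[>] 0) (𝓝 (γ 0)) := by
    refine (h.cont 0 ⟨le_rfl, h.pos⟩).mono_left (nhdsWithin_le_iff.2 ?_)
    exact mem_of_superset (Ioo_mem_nhdsGT h.pos) fun x hx => ⟨hx.1.le, hx.2⟩
  refine tendsto_nhds_unique h1 (h2.congr' ?_)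
  filter_upwards [Ioo_mem_nhdsGT h.pos] with x hx
  exact (h.G_zero (h.im_pos x hx)).symm

/-! ### the capacity parametrisation -/

/-- the inverse of the capacity -/
noncomputable def tau (γ : ℝ → ℂ) (T : ℝ) : ℝ → ℝ := Function.invFunOn (cap γ) (Ico 0 T)

theorem tau_cap (h : SCurve γ T) {t : ℝ} (ht : t ∈ Ico 0 T) : tau γ T (cap γ t) = t :=
  h.cap_strictMono.injOn (Function.invFunOn_mem ⟨t, ht, rfl⟩) ht
    (Function.invFunOn_eq ⟨t, ht, rfl⟩)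

theorem cap_mono (h : SCurve γ T) {s t : ℝ} (hs : 0 ≤ s) (hst : s ≤ t) (ht : t < T) :
    cap γ s ≤ cap γ t :=
  h.cap_strictMono.monotoneOn ⟨hs, hst.trans_lt ht⟩ ⟨hs.trans hst, ht⟩ hst

/-- every capacity between `0` and `cap γ t` is attained -/
theorem tau_mem (h : SCurve γ T) {t : ℝ} (ht : t ∈ Ico 0 T) {s : ℝ} (hs : s ∈ Icc 0 (cap γ t)) :
    tau γ T s ∈ Icc 0 t ∧ cap γ (tau γ T s) = s := by
  have hsub : Icc 0 t ⊆ Ico 0 T := fun s hs => ⟨hs.1, hs.2.trans_lt ht.2⟩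
  have h1 := intermediate_value_Icc ht.1 (h.cap_cont.mono hsub)
  rw [h.cap_zero] at h1
  obtain ⟨u, hu, rfl⟩ := h1 hs
  rw [h.tau_cap (hsub hu)]
  exact ⟨hu, rfl⟩

theorem tau_mono (h : SCurve γ T) {t : ℝ} (ht : t ∈ Ico 0 T) {s s' : ℝ} (hs : 0 ≤ s)
    (hss : s ≤ s') (hs' : s' ≤ cap γ t) : tau γ T s ≤ tau γ T s' := by
  obtain ⟨h1, h2⟩ := h.tau_mem ht ⟨hs, hss.trans hs'⟩
  obtain ⟨h3, h4⟩ := h.tau_mem ht ⟨hs.trans hss, hs'⟩
  by_contra hcon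
  have := h.cap_lt h3.1 (not_le.1 hcon) (h1.2.trans_lt ht.2)
  linarith

theorem tau_lt (h : SCurve γ T) {t : ℝ} (ht : t ∈ Ico 0 T) {s : ℝ} (hs : 0 ≤ s)
    (hs' : s < cap γ t) : tau γ T s < t := by
  obtain ⟨h1, h2⟩ := h.tau_mem ht ⟨hs, hs'.le⟩
  refine lt_of_le_of_ne h1.2 fun h3 => ?_
  rw [h3] at h2
  linarith

/-- the inverse of the capacity is uniformly continuous -/
theorem tau_unif (h : SCurve γ T) {t : ℝ} (ht : t ∈ Ico 0 T) {ε : ℝ} (hε : 0 < ε) :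
    ∃ δ : ℝ, 0 < δ ∧ ∀ s s' : ℝ, 0 ≤ s → s ≤ s' → s' ≤ cap γ t → s' ≤ s + δ →
      tau γ T s' ≤ tau γ T s + ε := by
  -- the infimum of `cap (u + ε) - cap u` over `u` is positive
  rcases lt_or_ge t ε with hte | hte
  · refine ⟨1, one_pos, fun s s' h0 h1 h2 _ => ?_⟩
    have h3 := (h.tau_mem ht ⟨h0.trans h1, h2⟩).1.2
    have h4 := (h.tau_mem ht ⟨h0, h1.trans h2⟩).1.1
    linarith
  · have hc : ContinuousOn (fun u => cap γ (u + ε) - cap γ u) (Icc 0 (t - ε)) := by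
      refine ContinuousOn.sub ?_ ?_
      · refine h.cap_cont.comp (by fun_prop) fun u hu => ?_
        exact ⟨by linarith [hu.1], by linarith [hu.2, ht.2]⟩
      · exact h.cap_cont.mono fun u hu => ⟨hu.1, by linarith [hu.2, ht.2]⟩
    obtain ⟨u₀, hu₀, hmin⟩ := isCompact_Icc.exists_isMinOn ⟨0, ⟨le_rfl, by linarith⟩⟩ hc
    have hpos : 0 < cap γ (u₀ + ε) - cap γ u₀ := by
      have := h.cap_lt hu₀.1 (show u₀ < u₀ + ε by linarith) (by linarith [hu₀.2, ht.2])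
      linarith
    refine ⟨(cap γ (u₀ + ε) - cap γ u₀) / 2, by positivity, fun s s' h0 h1 h2 h3 => ?_⟩
    obtain ⟨h4, h5⟩ := h.tau_mem ht ⟨h0, h1.trans h2⟩
    obtain ⟨h6, h7⟩ := h.tau_mem ht ⟨h0.trans h1, h2⟩
    by_contra hcon
    push Not at hcon
    have h8 := hmin (show tau γ T s ∈ Icc 0 (t - ε) from ⟨h4.1, by linarith [h6.2]⟩)
    simp only [mem_ofPred_eq] at h8
    have h9 := h.cap_mono (by linarith [h4.1]) hcon.le (h6.2.trans_lt ht.2)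
    rw [h7] at h9
    rw [h5] at h8
    linarith

/-- the driving function in the capacity parametrisation -/
noncomputable def W (γ : ℝ → ℂ) (T : ℝ) (s : ℝ) : ℝ := drv γ (tau γ T s)

/-- **the chain of a simple curve** -/
theorem chain (h : SCurve γ T) {T' : ℝ} (hT' : T' ∈ Ioo 0 T) :
    Chain (W γ T) (fun s => γ '' Icc 0 (tau γ T s)) (fun s => G γ (tau γ T s)) (cap γ T') := by
  have hT'm : T' ∈ Ico 0 T := ⟨hT'.1.le, hT'.2⟩
  have hpos : 0 < cap γ T' := by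
    have := h.cap_lt le_rfl hT'.1 hT'.2
    rwa [h.cap_zero] at this
  have hmem : ∀ s ∈ Ico 0 (cap γ T'), tau γ T s ∈ Ico 0 T := fun s hs => by
    have := (h.tau_mem hT'm ⟨hs.1, hs.2.le⟩).1
    exact ⟨this.1, this.2.trans_lt hT'.2⟩
  refine ⟨hpos, fun s hs => h.hyd (hmem s hs), ?_, ?_, ?_, ?_⟩
  · have : tau γ T 0 = 0 := by
      have := h.tau_cap (t := 0) ⟨le_rfl, h.pos⟩
      rwa [h.cap_zero] at this
    rw [this]
    exact h.image_zero
  · intro s s' h0 h1 h2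
    exact h.mono (h.tau_mono hT'm h0 h1 h2.le)
  · intro s hs
    have := (h.tau_mem hT'm ⟨hs.1, hs.2.le⟩).2
    rw [cap] at this
    linarith
  · intro S' hS' ε hε
    obtain ⟨δ, hδ, hd⟩ := h.small hT'm hε
    obtain ⟨δ', hδ', hd'⟩ := h.tau_unif hT'm hδ
    refine ⟨δ', hδ', fun s s' h0 h1 h2 h3 h4 => ?_⟩
    have hs := (h.tau_mem hT'm ⟨h0, h2.trans h4.le⟩).1
    exact hd _ hs _ (h.tau_mono hT'm h0 h2 h4.le) (hd' s s' h0 h2 h4.le h3)
      (h.tau_mem hT'm ⟨h0.trans h2, h4.le⟩).1.2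

theorem W_cap (h : SCurve γ T) {t : ℝ} (ht : t ∈ Ico 0 T) : W γ T (cap γ t) = drv γ t := by
  rw [W, h.tau_cap ht]

theorem exists_later (h : SCurve γ T) {t : ℝ} (ht : t ∈ Ico 0 T) :
    ∃ T' ∈ Ioo 0 T, t < T' ∧ cap γ t < cap γ T' := by
  have h1 : t < (t + T) / 2 := by linarith [ht.2]
  have h2 : (t + T) / 2 < T := by linarith [ht.2]
  exact ⟨(t + T) / 2, ⟨ht.1.trans_lt h1, h2⟩, h1, h.cap_lt ht.1 h1 h2⟩

/-- **the domains** -/
theorem dom (h : SCurve γ T) {t : ℝ} (ht : t ∈ Ico 0 T) :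
    loewnerDomain (W γ T) (cap γ t) = HH \ γ '' Icc 0 t := by
  obtain ⟨T', hT', -, hc⟩ := h.exists_later ht
  have h0 : 0 ≤ cap γ t := by
    have := h.cap_mono le_rfl ht.1 ht.2
    rwa [h.cap_zero] at this
  have := (h.chain hT').dom (t := cap γ t) ⟨h0, hc⟩
  rwa [h.tau_cap ht] at this

theorem cap_nonneg (h : SCurve γ T) {t : ℝ} (ht : t ∈ Ico 0 T) : 0 ≤ cap γ t := by
  have := h.cap_mono le_rfl ht.1 ht.2
  rwa [h.cap_zero] at this

/-- **the solutions** -/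
theorem sol (h : SCurve γ T) {t : ℝ} (ht : t ∈ Ico 0 T) {z : ℂ} (hz : z ∈ HH \ γ '' Icc 0 t) :
    IsLoewnerSol (W γ T) z (cap γ t) (fun s => G γ (tau γ T s) z) := by
  obtain ⟨T', hT', -, hc⟩ := h.exists_later ht
  refine (h.chain hT').sol (t := cap γ t) ⟨h.cap_nonneg ht, hc⟩ ?_
  simp only [h.tau_cap ht]
  exact hz

theorem drv_cont (h : SCurve γ T) : ContinuousOn (drv γ) (Ico 0 T) := by
  intro t ht
  obtain ⟨T', hT', htT', hc⟩ := h.exists_later ht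
  have hc' : ContinuousOn (fun t => W γ T (cap γ t)) (Ico 0 T') := by
    refine (h.chain hT').cont.comp (h.cap_cont.mono ?_) ?_
    · exact fun u hu => ⟨hu.1, hu.2.trans hT'.2⟩
    · exact fun u hu => ⟨h.cap_nonneg ⟨hu.1, hu.2.trans hT'.2⟩, h.cap_lt hu.1 hu.2 hT'.2⟩
  have h2 : ContinuousWithinAt (fun t => W γ T (cap γ t)) (Ico 0 T) t := by
    refine (hc' t ⟨ht.1, htT'⟩).mono_of_mem_nhdsWithin ?_
    filter_upwards [self_mem_nhdsWithin, mem_nhdsWithin_of_mem_nhds (Iio_mem_nhds htT')]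
      with u hu hu'
    exact ⟨hu.1, hu'⟩
  exact h2.congr (fun u hu => (h.W_cap hu).symm) (h.W_cap ht).symm

theorem W_cont (h : SCurve γ T) {T' : ℝ} (hT' : T' ∈ Ico 0 T) :
    ContinuousOn (W γ T) (Icc 0 (cap γ T')) := by
  obtain ⟨T'', hT'', -, hc⟩ := h.exists_later hT'
  exact (h.chain hT'').cont.mono fun s hs => ⟨hs.1, hs.2.trans_lt hc⟩

/-- a driving function is determined by its values on the capacities -/
theorem congr_dom (h : SCurve γ T) {V : ℝ → ℝ} {t : ℝ} (ht : t ∈ Ico 0 T)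
    (hV : ∀ s ∈ Icc 0 t, V (cap γ s) = drv γ s) :
    loewnerDomain V (cap γ t) = HH \ γ '' Icc 0 t := by
  have he : ∀ s ∈ Icc 0 (cap γ t), V s = W γ T s := by
    intro s hs
    obtain ⟨h1, h2⟩ := h.tau_mem ht hs
    have := hV _ h1
    rwa [h2] at this
  rw [← h.dom ht]
  ext z
  constructor
  · rintro ⟨v, hv⟩
    exact ⟨v, hv.1, fun s hs => by rw [← he s hs]; exact hv.2 s hs⟩
  · rintro ⟨v, hv⟩
    exact ⟨v, hv.1, fun s hs => by rw [he s hs]; exact hv.2 s hs⟩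

/-- **the solutions**, for any driving function -/
theorem congr_sol (h : SCurve γ T) {V : ℝ → ℝ} {t : ℝ} (ht : t ∈ Ico 0 T)
    (hV : ∀ s ∈ Icc 0 t, V (cap γ s) = drv γ s) {z : ℂ} (hz : z ∈ HH \ γ '' Icc 0 t) :
    IsLoewnerSol V z (cap γ t) (fun s => G γ (tau γ T s) z) := by
  have he : ∀ s ∈ Icc 0 (cap γ t), V s = W γ T s := by
    intro s hs
    obtain ⟨h1, h2⟩ := h.tau_mem ht hs
    have := hV _ h1
    rwa [h2] at this
  have hs := h.sol ht hz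
  exact ⟨hs.1, fun s hs' => by rw [he s hs']; exact hs.2 s hs'⟩

/-- the value of any solution at the capacity of `γ [0,s]` -/
theorem sol_eq (h : SCurve γ T) {V : ℝ → ℝ} {t : ℝ} (ht : t ∈ Ico 0 T)
    (hV : ∀ s ∈ Icc 0 t, V (cap γ s) = drv γ s) {z : ℂ} {v : ℝ → ℂ}
    (hv : IsLoewnerSol V z (cap γ t) v) {s : ℝ} (hs : s ∈ Icc 0 t) : v (cap γ s) = G γ s z := by
  have hz : z ∈ HH \ γ '' Icc 0 t := by
    rw [← h.congr_dom ht hV]
    exact ⟨v, hv⟩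
  have h1 := h.congr_sol ht hV hz
  have hsT : s ∈ Ico 0 T := ⟨hs.1, hs.2.trans_lt ht.2⟩
  have h2 := hv.unique h1 (s := cap γ s) ⟨h.cap_nonneg hsT, h.cap_mono hs.1 hs.2 ht.2⟩
  rw [h2, h.tau_cap hsT]

/-- **output for ARCX** -/
theorem sgen (h : SCurve γ T) {V : ℝ → ℝ} {T' : ℝ} (h0 : 0 < T') (hT' : T' ≤ T)
    (hV : ∀ t ∈ Ico 0 T', V (cap γ t) = drv γ t) : ARCX.SGen V γ (cap γ) T' := by
  have hsub : Ico 0 T' ⊆ Ico 0 T := Ico_subset_Ico_right hT'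
  refine ⟨h0, h.cont.mono hsub, h.inj.mono hsub, fun t ht => h.im_pos t ⟨ht.1, ht.2.trans_le hT'⟩,
    ?_, h.cap_cont.mono hsub, h.cap_strictMono.mono hsub, h.cap_zero, fun t ht => ?_⟩
  · have := hV 0 ⟨le_rfl, h0⟩
    rw [h.cap_zero] at this
    rw [this, h.drv_zero]
  · exact h.congr_dom (hsub ht) fun s hs => hV s ⟨hs.1, hs.2.trans_lt ht.2⟩

/-- a continuous driver on a compact time interval -/
theorem exists_driver (h : SCurve γ T) {T' : ℝ} (hT' : T' ∈ Ioo 0 T) :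
    ∃ V : ℝ → ℝ, Continuous V ∧ (∀ t ∈ Icc 0 T', V (cap γ t) = drv γ t) ∧
      ARCX.SGen V γ (cap γ) T' := by
  have hT'm : T' ∈ Ico 0 T := ⟨hT'.1.le, hT'.2⟩
  have h0 : 0 ≤ cap γ T' := h.cap_nonneg hT'm
  have hc := h.W_cont hT'm
  have hV : ∀ t ∈ Icc 0 T', (fun s => W γ T (max 0 (min s (cap γ T')))) (cap γ t) = drv γ t := by
    intro t ht
    have htT : t ∈ Ico 0 T := ⟨ht.1, ht.2.trans_lt hT'.2⟩
    simp only [min_eq_left (h.cap_mono ht.1 ht.2 hT'.2), max_eq_right (h.cap_nonneg htT),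
      h.W_cap htT]
  refine ⟨fun s => W γ T (max 0 (min s (cap γ T'))), ?_, hV,
    h.sgen hT'.1 hT'.2.le fun t ht => hV t ⟨ht.1, ht.2.le⟩⟩
  exact hc.comp_continuous (by fun_prop) fun s =>
    ⟨le_max_left _ _, max_le h0 (min_le_right _ _)⟩

/-- a continuous driver for all times when the capacity is unbounded -/
theorem exists_driver_top (h : SCurve γ T) (hb : ∀ M : ℝ, ∃ t ∈ Ico 0 T, M ≤ cap γ t) :
    ∃ V : ℝ → ℝ, Continuous V ∧ (∀ t ∈ Ico 0 T, V (cap γ t) = drv γ t) ∧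
      (∀ s ≤ 0, V s = V 0) ∧ ARCX.SGen V γ (cap γ) T := by
  have hc : ContinuousOn (W γ T) (Ici 0) := by
    intro s hs
    obtain ⟨t, ht, hM⟩ := hb (s + 1)
    refine ((h.W_cont ht) s ⟨hs, by linarith⟩).mono_of_mem_nhdsWithin ?_
    filter_upwards [self_mem_nhdsWithin, mem_nhdsWithin_of_mem_nhds (Iio_mem_nhds
      (show s < cap γ t by linarith))] with u hu hu'
    exact ⟨hu, hu'.le⟩
  have hV : ∀ t ∈ Ico 0 T, (fun s => W γ T (max s 0)) (cap γ t) = drv γ t := by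
    intro t ht
    simp only [max_eq_left (h.cap_nonneg ht), h.W_cap ht]
  refine ⟨fun s => W γ T (max s 0), ?_, hV, ?_, h.sgen h.pos le_rfl hV⟩
  · exact hc.comp_continuous (by fun_prop) fun s => mem_Ici.2 (le_max_right _ _)
  · intro s hs
    simp only [max_eq_right hs, max_self]

end SCurve

end Vale.Agent.P153.R2.L2G
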