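import Vale.Agent.P153.R2.L2.Proj
import Vale.Agent.P153.R2.L1.Stmt

/-!
# P153, block L2, part 2: small images in the half-plane
-/

open Set Topology Metric MeasureTheory Filter Function
open scoped ENNReal Real ComplexConjugate

namespace Vale.Agent.P153.R2.L2A

open L1

/-- the Cayley transform with centre `w₀` -/
noncomputable def cay (w₀ w : ℂ) : ℂ := (w - w₀) / (w - conj w₀)

theorem sub_conj_ne {w₀ w : ℂ} (h₀ : 0 < w₀.im) (h : 0 ≤ w.im) : w - conj w₀ ≠ 0 := by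
  intro h'
  have := congrArg Complex.im h'
  simp at this
  linarith

theorem cay_self (w₀ : ℂ) : cay w₀ w₀ = 0 := by simp [cay]

theorem cay_sub {w₀ w w' : ℂ} (h₀ : 0 < w₀.im) (h : 0 ≤ w.im) (h' : 0 ≤ w'.im) :
    cay w₀ w' - cay w₀ w = (w₀ - conj w₀) * (w' - w) / ((w - conj w₀) * (w' - conj w₀)) := by
  have h1 := sub_conj_ne h₀ h
  have h2 := sub_conj_ne h₀ h'
  unfold cay
  field_simp
  ring

theorem norm_cay_lt {w₀ w : ℂ} (h₀ : 0 < w₀.im) (h : 0 < w.im) : ‖cay w₀ w‖ < 1 := by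
  have h1 := sub_conj_ne h₀ h.le
  rw [cay, norm_div, div_lt_one (norm_pos_iff.2 h1)]
  rw [← sq_lt_sq₀ (norm_nonneg _) (norm_nonneg _), ← Complex.normSq_eq_norm_sq,
    ← Complex.normSq_eq_norm_sq, Complex.normSq_apply, Complex.normSq_apply]
  simp
  nlinarith [mul_pos h₀ h]

theorem exists_cay {w₀ v : ℂ} (h₀ : 0 < w₀.im) (hv : ‖v‖ < 1) : ∃ w : ℂ, 0 < w.im ∧ cay w₀ w = v := by
  have hv1 : (1 : ℂ) - v ≠ 0 := by
    intro h
    have : v = 1 := (sub_eq_zero.1 h).symm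
    rw [this, norm_one] at hv
    exact lt_irrefl _ hv
  have hn : 0 < Complex.normSq (1 - v) := Complex.normSq_pos.2 hv1
  have hs : v.re ^ 2 + v.im ^ 2 < 1 := by
    have := (sq_lt_one_iff₀ (norm_nonneg v)).2 hv
    rw [← Complex.normSq_eq_norm_sq, Complex.normSq_apply] at this
    nlinarith
  set w : ℂ := (w₀ - conj w₀ * v) / (1 - v) with hw
  have him : 0 < w.im := by
    have e : w.im = w₀.im * (1 - v.re ^ 2 - v.im ^ 2) / Complex.normSq (1 - v) := by
      rw [hw, Complex.div_im]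
      simp
      field_simp
      ring
    rw [e]
    exact div_pos (mul_pos h₀ (by linarith)) hn
  refine ⟨w, him, ?_⟩
  have h2 : w - conj w₀ = (w₀ - conj w₀) / (1 - v) := by
    rw [hw]; field_simp; ring
  have h3 : w - w₀ = (w₀ - conj w₀) * v / (1 - v) := by
    rw [hw]; field_simp; ring
  have h4 : w₀ - conj w₀ ≠ 0 := sub_conj_ne h₀ h₀.le
  rw [cay, h2, h3]
  field_simp

theorem norm_self_sub_conj {w₀ : ℂ} (h₀ : 0 < w₀.im) : ‖w₀ - conj w₀‖ = 2 * w₀.im := by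
  rw [Complex.sub_conj, norm_mul, Complex.norm_I, mul_one, Complex.norm_real,
    Real.norm_of_nonneg (by linarith)]

/-- **small image in the half-plane** -/
theorem small_half {Ω : Set ℂ} (hΩ : IsOpen Ω) {g : ℂ → ℂ} (hg : DifferentiableOn ℂ g Ω)
    (hi : InjOn g Ω) (him : g '' Ω = HH) {z₀ p : ℂ} (hz₀ : z₀ ∈ Ω)
    {a b ℓ : ℝ} (ha : 0 < a) (hab : a < b) (hb : b ≤ dist z₀ p) (hℓ : 0 < ℓ) (hℓ1 : ℓ ≤ 1 / 8)
    (hlog : 2 * π * π < ℓ ^ 2 * Real.log (b / a)) {A : Set ℂ}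
    (hA : IsPreconnected A) (hAΩ : A ⊆ Ω) (hAp : A ⊆ closedBall p a) {z z' : ℂ} (hz : z ∈ A)
    (hz' : z' ∈ A) : ‖g z' - g z‖ * (2 * (g z₀).im) ≤
      4 * ℓ * (‖g z - conj (g z₀)‖ * ‖g z' - conj (g z₀)‖) := by
  have him' : ∀ z ∈ Ω, 0 < (g z).im := fun z hz => by
    have : g z ∈ HH := by rw [← him]; exact mem_image_of_mem _ hz
    exact this
  have h₀ := him' z₀ hz₀
  set ψ : ℂ → ℂ := fun z => cay (g z₀) (g z) with hψ
  have hd : DifferentiableOn ℂ ψ Ω := by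
    refine DifferentiableOn.div (hg.sub_const _) (hg.sub_const _) ?_
    exact fun z hz => sub_conj_ne h₀ (him' z hz).le
  have hinj : InjOn ψ Ω := by
    intro u hu v hv h
    have h1 := cay_sub h₀ (him' u hu).le (him' v hv).le
    have h2 : cay (g z₀) (g v) - cay (g z₀) (g u) = 0 := sub_eq_zero.2 h.symm
    rw [h2, eq_comm, div_eq_zero_iff] at h1
    rcases h1 with h1 | h1
    · rcases mul_eq_zero.1 h1 with h3 | h3
      · exact absurd h3 (sub_conj_ne h₀ h₀.le)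
      · exact (hi hv hu (sub_eq_zero.1 h3)).symm
    · exact absurd h1 (mul_ne_zero (sub_conj_ne h₀ (him' u hu).le) (sub_conj_ne h₀ (him' v hv).le))
  have himg : ψ '' Ω = ball 0 1 := by
    ext v
    constructor
    · rintro ⟨z, hz, rfl⟩
      rw [mem_ball_zero_iff]
      exact norm_cay_lt h₀ (him' z hz)
    · intro hv
      rw [mem_ball_zero_iff] at hv
      obtain ⟨w, hw, hwv⟩ := exists_cay h₀ hv
      have : w ∈ g '' Ω := by rw [him]; exact hw
      obtain ⟨z, hz, rfl⟩ := this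
      exact ⟨z, hz, hwv⟩
  have key := small_disc hΩ hd hinj himg hz₀ (cay_self _) ha hab hb hℓ hℓ1 hlog hA hAΩ hAp hz hz'
  simp only [hψ] at key
  have i1 := him' z (hAΩ hz)
  have i2 := him' z' (hAΩ hz')
  rw [cay_sub h₀ i1.le i2.le, norm_div, norm_mul, norm_self_sub_conj h₀, norm_mul,
    div_le_iff₀ (mul_pos (norm_pos_iff.2 (sub_conj_ne h₀ i1.le))
      (norm_pos_iff.2 (sub_conj_ne h₀ i2.le)))] at key
  linarith

end Vale.Agent.P153.R2.L2A
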