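import Vale.Agent.P153.R2.R1.Wolff
import Mathlib.MeasureTheory.Function.JacobianOneDim
import Mathlib.Analysis.Complex.OpenMapping
import Mathlib.Analysis.Convex.Topology
import Mathlib.MeasureTheory.Measure.Lebesgue.VolumeOfBalls
import Mathlib.MeasureTheory.Measure.Haar.Unique

/-!
# P153, block L2, part 1: small images by projections

A connected piece of a domain `Ω` inside a small ball is mapped by a conformal bijection `ψ` of `Ω`
onto the unit disc to a small set, uniformly over all domains: no boundary regularity is needed.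
-/

open Set Topology Metric MeasureTheory Filter Function
open scoped ENNReal Real

namespace Vale.Agent.P153.R2.L2A

open R1

/-! ### conformal bijections -/

theorem isOpen_image_of_injOn {Ω V : Set ℂ} {ψ : ℂ → ℂ}
    (hψ : DifferentiableOn ℂ ψ Ω) (hi : InjOn ψ Ω) (hV : IsOpen V) (hVΩ : V ⊆ Ω) :
    IsOpen (ψ '' V) := by
  rw [isOpen_iff_mem_nhds]
  rintro _ ⟨z, hz, rfl⟩
  obtain ⟨ε, hε, hball⟩ := Metric.isOpen_iff.1 hV z hz
  have ha : AnalyticOnNhd ℂ ψ (ball z ε) :=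
    (hψ.mono (hball.trans hVΩ)).analyticOnNhd isOpen_ball
  rcases ha.is_constant_or_isOpen (convex_ball z ε).isPreconnected with ⟨w, hw⟩ | h'
  · exfalso
    have h1 : z + (ε / 2 : ℝ) ∈ ball z ε := by
      rw [mem_ball, dist_eq_norm, add_sub_cancel_left, Complex.norm_real,
        Real.norm_of_nonneg (by positivity)]
      linarith
    have h0 : z ∈ ball z ε := mem_ball_self hε
    have := hi (hVΩ (hball h1)) (hVΩ (hball h0)) (by rw [hw _ h0, hw _ h1])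
    have h2 : ((ε / 2 : ℝ) : ℂ) = 0 := by simpa using this
    rw [Complex.ofReal_eq_zero] at h2
    linarith
  · exact mem_of_superset ((h' _ Subset.rfl isOpen_ball).mem_nhds ⟨z, mem_ball_self hε, rfl⟩)
      (image_mono hball)

theorem continuousOn_invFunOn {Ω : Set ℂ} (hΩ : IsOpen Ω) {ψ : ℂ → ℂ}
    (hψ : DifferentiableOn ℂ ψ Ω) (hi : InjOn ψ Ω) :
    ContinuousOn (invFunOn ψ Ω) (ψ '' Ω) := by
  intro w hw
  obtain ⟨z, hz, rfl⟩ := hw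
  have hwz : invFunOn ψ Ω (ψ z) = z :=
    hi (invFunOn_mem ⟨z, hz, rfl⟩) hz (invFunOn_eq ⟨z, hz, rfl⟩)
  rw [ContinuousWithinAt, hwz]
  intro N hN
  obtain ⟨V, hVN, hVo, hzV⟩ := _root_.mem_nhds_iff.1 (Filter.inter_mem hN (hΩ.mem_nhds hz))
  have h1 : ψ '' V ∈ 𝓝 (ψ z) :=
    (isOpen_image_of_injOn hψ hi hVo (hVN.trans inter_subset_right)).mem_nhds ⟨z, hzV, rfl⟩
  rw [Filter.mem_map]
  refine mem_of_superset (mem_nhdsWithin_of_mem_nhds h1) ?_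
  rintro _ ⟨v, hv, rfl⟩
  have hvΩ : v ∈ Ω := (hVN hv).2
  have : invFunOn ψ Ω (ψ v) = v :=
    hi (invFunOn_mem ⟨v, hvΩ, rfl⟩) hvΩ (invFunOn_eq ⟨v, hvΩ, rfl⟩)
  simp only [mem_preimage, this]
  exact (hVN hv).1

/-! ### projections of the image of a circle -/

theorem volume_proj_le {U : Set ℂ} (hU : IsOpen U) {ψ : ℂ → ℂ} (hψ : DifferentiableOn ℂ ψ U)
    (c : ℂ) {ρ : ℝ} (hρ : 0 < ρ) :
    volume ((fun z => (ψ z).re) '' (U ∩ sphere c ρ)) ≤ len U ψ c ρ := by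
  set γ : ℝ → ℂ := fun θ => c + ρ * Complex.exp (θ * Complex.I) with hγ
  have hγc : Continuous γ := by rw [hγ]; fun_prop
  set Θ : Set ℝ := Ioo (-π) π ∩ γ ⁻¹' U with hΘ
  have hΘm : MeasurableSet Θ := measurableSet_Ioo.inter (hU.preimage hγc).measurableSet
  set h : ℝ → ℝ := fun θ => (ψ (γ θ)).re with hh
  set h' : ℝ → ℝ := fun θ => (deriv ψ (γ θ) * (ρ * (Complex.exp (θ * Complex.I) * Complex.I))).re
    with hh'
  have hγd : ∀ θ : ℝ, HasDerivAt γ (ρ * (Complex.exp (θ * Complex.I) * Complex.I)) θ := by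
    intro θ
    have h1 : HasDerivAt (fun θ : ℝ => (θ : ℂ) * Complex.I) Complex.I θ := by
      simpa using (Complex.ofRealCLM.hasDerivAt (x := θ)).mul_const Complex.I
    exact (h1.cexp.const_mul (ρ : ℂ)).const_add c
  have hd : ∀ θ ∈ Θ, HasDerivWithinAt h (h' θ) Θ θ := by
    intro θ hθ
    have h1 := (hψ.differentiableAt (hU.mem_nhds hθ.2)).hasDerivAt
    have h2 : HasDerivAt (fun θ => ψ (γ θ))
      (deriv ψ (γ θ) * (ρ * (Complex.exp (θ * Complex.I) * Complex.I))) θ :=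
      h1.comp_of_eq θ (hγd θ) rfl
    exact (Complex.reCLM.hasFDerivAt.comp_hasDerivAt θ h2).hasDerivWithinAt
  have hvol : volume (h '' Θ) ≤ ∫⁻ θ in Θ, ENNReal.ofReal |h' θ| := by
    have := addHaar_image_le_lintegral_abs_det_fderiv volume hΘm
      (fun x hx => (hd x hx).hasFDerivWithinAt)
    simpa only [ContinuousLinearMap.det_toSpanSingleton] using this
  have hsub : (fun z => (ψ z).re) '' (U ∩ sphere c ρ) ⊆ h '' Θ ∪ {(ψ (c - ρ)).re} := by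
    rintro _ ⟨z, ⟨hzU, hzs⟩, rfl⟩
    have hn : ‖z - c‖ = ρ := by rwa [mem_sphere, dist_eq_norm] at hzs
    have hz : γ (z - c).arg = z := by
      simp only [hγ]
      rw [← hn, Complex.norm_mul_exp_arg_mul_I]
      ring
    by_cases hπ : (z - c).arg = π
    · right
      rw [hπ] at hz
      simp only [hγ, Complex.exp_pi_mul_I] at hz
      rw [mem_singleton_iff, ← hz]
      ring_nf
    · left
      refine ⟨(z - c).arg, ⟨⟨Complex.neg_pi_lt_arg _,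
        lt_of_le_of_ne (Complex.arg_le_pi _) hπ⟩, ?_⟩, ?_⟩
      · rw [mem_preimage, hz]; exact hzU
      · simp only [hh]; rw [hz]
  calc volume ((fun z => (ψ z).re) '' (U ∩ sphere c ρ))
      ≤ volume (h '' Θ ∪ {(ψ (c - ρ)).re}) := measure_mono hsub
    _ ≤ volume (h '' Θ) + volume {(ψ (c - ρ)).re} := measure_union_le _ _
    _ = volume (h '' Θ) := by rw [Real.volume_singleton, add_zero]
    _ ≤ ∫⁻ θ in Θ, ENNReal.ofReal |h' θ| := hvol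
    _ ≤ ∫⁻ θ in Θ, ENNReal.ofReal ρ * dens U ψ (γ θ) := by
        refine setLIntegral_mono' hΘm fun θ hθ => ?_
        have e : dens U ψ (γ θ) = ENNReal.ofReal ‖deriv ψ (γ θ)‖ := by
          have : γ θ ∈ U := hθ.2
          simp [dens, this]
        rw [e, ← ENNReal.ofReal_mul hρ.le]
        refine ENNReal.ofReal_le_ofReal ?_
        refine (Complex.abs_re_le_norm _).trans ?_
        rw [norm_mul, norm_mul, norm_mul, Complex.norm_exp_ofReal_mul_I, Complex.norm_I,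
          Complex.norm_real, Real.norm_of_nonneg hρ.le, mul_one, mul_one, mul_comm]
    _ ≤ len U ψ c ρ := lintegral_mono_set inter_subset_left

/-- a number outside of a small set -/
theorem exists_notMem_of_volume {S : Set ℝ} {ℓ : ℝ} (hS : volume S ≤ ENNReal.ofReal ℓ)
    {x y : ℝ} (hxy : ℓ < y - x) (hℓ : 0 ≤ ℓ) : ∃ t ∈ Ioo x y, t ∉ S := by
  by_contra hcon
  push Not at hcon
  have h1 : volume (Ioo x y) ≤ volume S := measure_mono hcon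
  rw [Real.volume_Ioo] at h1
  have h2 := h1.trans hS
  rw [ENNReal.ofReal_le_ofReal_iff hℓ] at h2
  linarith

/-- a set which does not meet the preimage of the circle is on one side of it -/
theorem same_side {S : Set ℂ} (hS : IsPreconnected S) {F : ℂ → ℂ} (hF : ContinuousOn F S)
    {p : ℂ} {ρ : ℝ} (hne : ∀ w ∈ S, dist (F w) p ≠ ρ) {w w' : ℂ} (hw : w ∈ S) (hw' : w' ∈ S)
    (h : dist (F w) p < ρ) : dist (F w') p < ρ := by
  by_contra hcon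
  have hcon' : ρ ≤ dist (F w') p := not_lt.1 hcon
  have hc : ContinuousOn (fun w => dist (F w) p) S :=
    continuous_dist.comp_continuousOn (hF.prodMk continuousOn_const)
  obtain ⟨v, hv, hve⟩ := (hS.image _ hc).ordConnected.out ⟨w, hw, rfl⟩ ⟨w', hw', rfl⟩
    ⟨h.le, hcon'⟩
  exact hne v hv hve

/-- the vertical chord of the disc -/
def VV (x : ℝ) : Set ℂ := {w | ‖w‖ < 1 ∧ w.re = x}

/-- the horizontal chord of the disc -/
def HL (y : ℝ) : Set ℂ := {w | ‖w‖ < 1 ∧ w.im = y}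

theorem VV_preconn (x : ℝ) : IsPreconnected (VV x) := by
  have : VV x = ball (0 : ℂ) 1 ∩ {w : ℂ | Complex.reLm w = x} := by
    ext w; simp [VV]
  rw [this]
  exact ((convex_ball 0 1).inter (convex_hyperplane Complex.reLm.isLinear x)).isPreconnected

theorem HL_preconn (y : ℝ) : IsPreconnected (HL y) := by
  have : HL y = ball (0 : ℂ) 1 ∩ {w : ℂ | Complex.imLm w = y} := by
    ext w; simp [HL]
  rw [this]
  exact ((convex_ball 0 1).inter (convex_hyperplane Complex.imLm.isLinear y)).isPreconnected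

theorem norm_lt_one_of_sq {w : ℂ} (h : w.re ^ 2 + w.im ^ 2 < 1) : ‖w‖ < 1 := by
  rw [← Complex.sq_norm_sub_sq_re] at h
  nlinarith [norm_nonneg w]

/-- a closed rectangle inside the disc -/
theorem rect_bad {Ω : Set ℂ} {ψ : ℂ → ℂ} (hψ : DifferentiableOn ℂ ψ Ω) (hΩ : IsOpen Ω)
    (hi : InjOn ψ Ω) (him : ψ '' Ω = ball 0 1) {z₀ p : ℂ} (hz₀ : z₀ ∈ Ω) (h0 : ψ z₀ = 0)
    {ρ : ℝ} (hρz : ρ ≤ dist z₀ p) {x₁ x₂ y₁ y₂ : ℝ} (hx₁ : x₁ < 0) (hx₂ : 0 < x₂) (hy₁ : y₁ < 0)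
    (hy₂ : 0 < y₂) (hin : ∀ w : ℂ, w.re ∈ Icc x₁ x₂ → w.im ∈ Icc y₁ y₂ → ‖w‖ < 1)
    (hbad : ∀ w : ℂ, w.re ∈ Icc x₁ x₂ → w.im ∈ Icc y₁ y₂ →
      (w.re = x₁ ∨ w.re = x₂ ∨ w.im = y₁ ∨ w.im = y₂) → dist (invFunOn ψ Ω w) p < ρ) : False := by
  set F := invFunOn ψ Ω with hF
  have hFψ : ∀ z ∈ Ω, F (ψ z) = z := fun z hz =>
    hi (invFunOn_mem ⟨z, hz, rfl⟩) hz (invFunOn_eq ⟨z, hz, rfl⟩)
  have hψF : ∀ w ∈ ball (0 : ℂ) 1, F w ∈ Ω ∧ ψ (F w) = w := fun w hw => by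
    rw [← him] at hw
    exact ⟨invFunOn_mem hw, invFunOn_eq hw⟩
  have hFc : ContinuousOn F (ball 0 1) := by
    rw [← him]; exact continuousOn_invFunOn hΩ hψ hi
  set Q : Set ℂ := Icc x₁ x₂ ×ℂ Icc y₁ y₂ with hQ
  set Qo : Set ℂ := Ioo x₁ x₂ ×ℂ Ioo y₁ y₂ with hQo
  have hQc : IsCompact Q := isCompact_Icc.reProdIm isCompact_Icc
  have hQoo : IsOpen Qo := isOpen_Ioo.reProdIm isOpen_Ioo
  have hQb : Q ⊆ ball 0 1 := fun w hw => by
    rw [mem_ball_zero_iff]; exact hin w hw.1 hw.2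
  have hQQ : Qo ⊆ Q := fun w hw => ⟨Ioo_subset_Icc_self hw.1, Ioo_subset_Icc_self hw.2⟩
  have hFQ : IsCompact (F '' Q) := hQc.image_of_continuousOn (hFc.mono hQb)
  have hFQo : IsOpen (F '' Qo) := by
    have : F '' Qo = Ω ∩ ψ ⁻¹' Qo := by
      ext z
      constructor
      · rintro ⟨w, hw, rfl⟩
        have := hψF w (hQb (hQQ hw))
        exact ⟨this.1, by rw [mem_preimage, this.2]; exact hw⟩
      · rintro ⟨hz, hz'⟩
        exact ⟨ψ z, hz', hFψ z hz⟩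
    rw [this]
    exact hψ.continuousOn.isOpen_inter_preimage hΩ hQoo
  -- the ray from `z₀` away from `p`
  set R : Set ℂ := (fun s : ℝ => p + (s : ℂ) * (z₀ - p)) '' Ici 1 with hR
  have hRpre : IsPreconnected R := isPreconnected_Ici.image _ (by fun_prop)
  have hz₀R : z₀ ∈ R := ⟨1, self_mem_Ici, by simp⟩
  have hRd : ∀ z ∈ R, ρ ≤ dist z p := by
    rintro _ ⟨s, hs, rfl⟩
    rw [dist_eq_norm, add_sub_cancel_left, norm_mul, Complex.norm_real,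
      Real.norm_of_nonneg (zero_le_one.trans hs)]
    rw [dist_eq_norm] at hρz
    have : (1 : ℝ) ≤ s := hs
    nlinarith [norm_nonneg (z₀ - p)]
  have h0Q : (0 : ℂ) ∈ Qo := ⟨⟨hx₁, hx₂⟩, ⟨hy₁, hy₂⟩⟩
  have hF0 : F 0 = z₀ := by rw [← h0, hFψ z₀ hz₀]
  have hρp : 0 < dist z₀ p := by
    rcases lt_or_ge 0 ρ with h | h
    · linarith
    · exfalso
      have := hbad (x₁ : ℂ) (by simp; linarith) (by simp; constructor <;> linarith) (by simp)
      linarith [dist_nonneg (x := F (x₁ : ℂ)) (y := p)]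
  have hsub : R ⊆ F '' Qo ∪ (F '' Q)ᶜ := by
    intro z hz
    by_cases hzQ : z ∈ F '' Q
    · left
      obtain ⟨w, hw, rfl⟩ := hzQ
      refine ⟨w, ?_, rfl⟩
      have h1 := hRd _ hz
      by_contra hwo
      refine absurd (hbad w hw.1 hw.2 ?_) (not_lt.2 h1)
      by_contra hne
      push Not at hne
      apply hwo
      exact ⟨⟨lt_of_le_of_ne hw.1.1 (Ne.symm hne.1), lt_of_le_of_ne hw.1.2 hne.2.1⟩,
        ⟨lt_of_le_of_ne hw.2.1 (Ne.symm hne.2.2.1), lt_of_le_of_ne hw.2.2 hne.2.2.2⟩⟩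
    · exact Or.inr hzQ
  have hRnot : (R ∩ (F '' Q)ᶜ).Nonempty := by
    obtain ⟨M, hM⟩ := hFQ.isBounded.subset_closedBall p
    set s : ℝ := 1 + (|M| + 1) / dist z₀ p with hs
    have hs1 : 1 ≤ s := by
      have : 0 ≤ (|M| + 1) / dist z₀ p := by positivity
      linarith
    refine ⟨p + (s : ℂ) * (z₀ - p), ⟨s, hs1, rfl⟩, fun hmem => ?_⟩
    have h1 := hM hmem
    rw [mem_closedBall, dist_eq_norm, add_sub_cancel_left, norm_mul, Complex.norm_real,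
      Real.norm_of_nonneg (by linarith), ← dist_eq_norm, hs, add_mul, one_mul,
      div_mul_cancel₀ _ hρp.ne'] at h1
    linarith [le_abs_self M, dist_nonneg (x := z₀) (y := p)]
  obtain ⟨z, hzR, hz1, hz2⟩ := hRpre _ _ hFQo hFQ.isClosed.isOpen_compl hsub
    ⟨z₀, hz₀R, 0, h0Q, hF0⟩ hRnot
  exact hz2 (image_mono hQQ hz1)

/-- **small image**, real parts -/
theorem small_disc_re {Ω : Set ℂ} (hΩ : IsOpen Ω) {ψ : ℂ → ℂ} (hψ : DifferentiableOn ℂ ψ Ω)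
    (hi : InjOn ψ Ω) (him : ψ '' Ω = ball 0 1) {z₀ p : ℂ} (hz₀ : z₀ ∈ Ω) (h0 : ψ z₀ = 0)
    {a b ℓ : ℝ} (hb : b ≤ dist z₀ p) (hℓ : 0 < ℓ) (hℓ1 : ℓ ≤ 1 / 8)
    (hX : ∃ ρ ∈ Ioo a b, volume ((fun z => (ψ z).re) '' (Ω ∩ sphere p ρ)) ≤ ENNReal.ofReal ℓ ∧
      volume ((fun z => (ψ z).im) '' (Ω ∩ sphere p ρ)) ≤ ENNReal.ofReal ℓ) {A : Set ℂ}
    (hA : IsPreconnected A) (hAΩ : A ⊆ Ω) (hAp : A ⊆ closedBall p a) {z z' : ℂ} (hz : z ∈ A)
    (hz' : z' ∈ A) : (ψ z').re - (ψ z).re ≤ 2 * ℓ := by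
  obtain ⟨ρ, hρ, hXr, hXi⟩ := hX
  set F := invFunOn ψ Ω with hF
  have hFψ : ∀ z ∈ Ω, F (ψ z) = z := fun z hz =>
    hi (invFunOn_mem ⟨z, hz, rfl⟩) hz (invFunOn_eq ⟨z, hz, rfl⟩)
  have hψF : ∀ w ∈ ball (0 : ℂ) 1, F w ∈ Ω ∧ ψ (F w) = w := fun w hw => by
    rw [← him] at hw
    exact ⟨invFunOn_mem hw, invFunOn_eq hw⟩
  have hFc : ContinuousOn F (ball 0 1) := by
    rw [← him]; exact continuousOn_invFunOn hΩ hψ hi
  have hmem : ∀ {w : ℂ}, ‖w‖ < 1 → w ∈ ball (0 : ℂ) 1 := fun h => by rwa [mem_ball_zero_iff]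
  -- chords which miss the circle
  have hVside : ∀ x : ℝ, x ∉ (fun z => (ψ z).re) '' (Ω ∩ sphere p ρ) → ∀ w ∈ VV x, ∀ w' ∈ VV x,
      dist (F w) p < ρ → dist (F w') p < ρ := by
    intro x hx w hw w' hw' h
    refine same_side (VV_preconn x) (hFc.mono fun v hv => hmem hv.1) ?_ hw hw' h
    intro v hv hve
    have := hψF v (hmem hv.1)
    exact hx ⟨F v, ⟨this.1, hve⟩, by simp only; rw [this.2, hv.2]⟩
  have hHside : ∀ y : ℝ, y ∉ (fun z => (ψ z).im) '' (Ω ∩ sphere p ρ) → ∀ w ∈ HL y, ∀ w' ∈ HL y,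
      dist (F w) p < ρ → dist (F w') p < ρ := by
    intro x hx w hw w' hw' h
    refine same_side (HL_preconn x) (hFc.mono fun v hv => hmem hv.1) ?_ hw hw' h
    intro v hv hve
    have := hψF v (hmem hv.1)
    exact hx ⟨F v, ⟨this.1, hve⟩, by simp only; rw [this.2, hv.2]⟩
  obtain ⟨x₁, hx₁, hx₁'⟩ := exists_notMem_of_volume hXr (x := -(2 * ℓ)) (y := 0) (by linarith) hℓ.le
  obtain ⟨x₂, hx₂, hx₂'⟩ := exists_notMem_of_volume hXr (x := 0) (y := 2 * ℓ) (by linarith) hℓ.le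
  obtain ⟨y₁, hy₁, hy₁'⟩ := exists_notMem_of_volume hXi (x := -(2 * ℓ)) (y := 0) (by linarith) hℓ.le
  obtain ⟨y₂, hy₂, hy₂'⟩ := exists_notMem_of_volume hXi (x := 0) (y := 2 * ℓ) (by linarith) hℓ.le
  have hnorm : ∀ w : ℂ, |w.re| < 1 / 2 → |w.im| < 1 / 2 → ‖w‖ < 1 := by
    intro w h1 h2
    refine norm_lt_one_of_sq ?_
    have h3 := sq_abs w.re
    have h4 := sq_abs w.im
    nlinarith [abs_nonneg w.re, abs_nonneg w.im]
  have hgood : ¬ dist (F (⟨x₁, y₁⟩ : ℂ)) p < ρ := by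
    intro hbad
    have in1 : ∀ w : ℂ, w.re ∈ Icc x₁ x₂ → w.im ∈ Icc y₁ y₂ → ‖w‖ < 1 := by
      intro w hw1 hw2
      refine hnorm w ?_ ?_
      · rw [abs_lt]; constructor <;> linarith [hw1.1, hw1.2, hx₁.1, hx₂.2]
      · rw [abs_lt]; constructor <;> linarith [hw2.1, hw2.2, hy₁.1, hy₂.2]
    have hx12 : x₁ ≤ x₂ := (hx₁.2.trans hx₂.1).le
    have hy12 : y₁ ≤ y₂ := (hy₁.2.trans hy₂.1).le
    have c11 : ‖(⟨x₁, y₁⟩ : ℂ)‖ < 1 := in1 _ (left_mem_Icc.2 hx12) (left_mem_Icc.2 hy12)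
    have c12 : ‖(⟨x₁, y₂⟩ : ℂ)‖ < 1 := in1 _ (left_mem_Icc.2 hx12) (right_mem_Icc.2 hy12)
    have c21 : ‖(⟨x₂, y₁⟩ : ℂ)‖ < 1 := in1 _ (right_mem_Icc.2 hx12) (left_mem_Icc.2 hy12)
    have b12 : dist (F (⟨x₁, y₂⟩ : ℂ)) p < ρ := hVside x₁ hx₁' _ ⟨c11, rfl⟩ _ ⟨c12, rfl⟩ hbad
    have b21 : dist (F (⟨x₂, y₁⟩ : ℂ)) p < ρ := hHside y₁ hy₁' _ ⟨c11, rfl⟩ _ ⟨c21, rfl⟩ hbad
    refine rect_bad hψ hΩ hi him hz₀ h0 (hρ.2.le.trans hb) hx₁.2 hx₂.1 hy₁.2 hy₂.1 in1 ?_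
    rintro w hw1 hw2 (h | h | h | h)
    · exact hVside x₁ hx₁' _ ⟨c11, rfl⟩ _ ⟨in1 w hw1 hw2, h⟩ hbad
    · exact hVside x₂ hx₂' _ ⟨c21, rfl⟩ _ ⟨in1 w hw1 hw2, h⟩ b21
    · exact hHside y₁ hy₁' _ ⟨c11, rfl⟩ _ ⟨in1 w hw1 hw2, h⟩ hbad
    · exact hHside y₂ hy₂' _ ⟨c12, rfl⟩ _ ⟨in1 w hw1 hw2, h⟩ b12
  by_contra hcon
  push Not at hcon
  have hnz : ‖ψ z‖ < 1 := by
    rw [← mem_ball_zero_iff, ← him]; exact mem_image_of_mem _ (hAΩ hz)
  have hnz' : ‖ψ z'‖ < 1 := by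
    rw [← mem_ball_zero_iff, ← him]; exact mem_image_of_mem _ (hAΩ hz')
  have hα : -1 < (ψ z).re := by
    have := (abs_lt.1 ((Complex.abs_re_le_norm (ψ z)).trans_lt hnz)).1
    exact this
  have hβ : (ψ z').re < 1 := (abs_lt.1 ((Complex.abs_re_le_norm (ψ z')).trans_lt hnz')).2
  have hlen : ℓ < min (ψ z').re (1 - 4 * ℓ ^ 2) - max (ψ z).re (-(1 - 4 * ℓ ^ 2)) := by
    have h8 : 8 * ℓ ^ 2 ≤ ℓ := by nlinarith
    rcases le_total (ψ z').re (1 - 4 * ℓ ^ 2) with h1 | h1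
    · rw [min_eq_left h1]
      rcases le_total (ψ z).re (-(1 - 4 * ℓ ^ 2)) with h2 | h2
      · rw [max_eq_right h2]; nlinarith
      · rw [max_eq_left h2]; nlinarith
    · rw [min_eq_right h1]
      rcases le_total (ψ z).re (-(1 - 4 * ℓ ^ 2)) with h2 | h2
      · rw [max_eq_right h2]; nlinarith
      · rw [max_eq_left h2]; nlinarith
  obtain ⟨x, hx, hx'⟩ := exists_notMem_of_volume hXr hlen hℓ.le
  have hxa : (ψ z).re < x := (le_max_left _ _).trans_lt hx.1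
  have hxb : x < (ψ z').re := hx.2.trans_le (min_le_left _ _)
  have hx1 : -(1 - 4 * ℓ ^ 2) < x := (le_max_right _ _).trans_lt hx.1
  have hx2 : x < 1 - 4 * ℓ ^ 2 := hx.2.trans_le (min_le_right _ _)
  have hcr : ContinuousOn (fun z => (ψ z).re) A :=
    Complex.continuous_re.comp_continuousOn (hψ.continuousOn.mono hAΩ)
  obtain ⟨v, hv, hvx⟩ := (hA.image _ hcr).ordConnected.out ⟨z, hz, rfl⟩ ⟨z', hz', rfl⟩
    ⟨hxa.le, hxb.le⟩
  have hcn : ‖(⟨x, y₁⟩ : ℂ)‖ < 1 := by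
    refine norm_lt_one_of_sq ?_
    simp only
    have h1 : x ^ 2 < (1 - 4 * ℓ ^ 2) ^ 2 := sq_lt_sq' hx1 hx2
    have h2 : y₁ ^ 2 < 4 * ℓ ^ 2 := by nlinarith [hy₁.1, hy₁.2]
    have h3 : ℓ ^ 2 ≤ 1 / 64 := by nlinarith
    nlinarith [sq_nonneg ℓ]
  have hvV : ψ v ∈ VV x :=
    ⟨by rw [← mem_ball_zero_iff, ← him]; exact mem_image_of_mem _ (hAΩ hv), hvx⟩
  have hvb : dist (F (ψ v)) p < ρ := by
    rw [hFψ v (hAΩ hv)]
    exact (mem_closedBall.1 (hAp hv)).trans_lt hρ.1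
  have h1 : dist (F (⟨x, y₁⟩ : ℂ)) p < ρ := hVside x hx' _ hvV _ ⟨hcn, rfl⟩ hvb
  have hc11 : ‖(⟨x₁, y₁⟩ : ℂ)‖ < 1 := by
    refine hnorm _ ?_ ?_
    · rw [abs_lt]; constructor <;> simp only <;> linarith [hx₁.1, hx₁.2]
    · rw [abs_lt]; constructor <;> simp only <;> linarith [hy₁.1, hy₁.2]
  exact hgood (hHside y₁ hy₁' _ ⟨hcn, rfl⟩ _ ⟨hc11, rfl⟩ h1)

/-- existence of the good radius -/
theorem exists_radius {Ω : Set ℂ} (hΩ : IsOpen Ω) {ψ : ℂ → ℂ} (hψ : DifferentiableOn ℂ ψ Ω)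
    (hi : InjOn ψ Ω) (him : ψ '' Ω = ball 0 1) (p : ℂ) {a b ℓ : ℝ} (ha : 0 < a) (hab : a < b)
    (hℓ : 0 < ℓ) (hlog : 2 * π * π < ℓ ^ 2 * Real.log (b / a)) :
    ∃ ρ ∈ Ioo a b, volume ((fun z => (ψ z).re) '' (Ω ∩ sphere p ρ)) ≤ ENNReal.ofReal ℓ ∧
      volume ((fun z => (ψ z).im) '' (Ω ∩ sphere p ρ)) ≤ ENNReal.ofReal ℓ := by
  have hvol : volume (ψ '' Ω) ≤ ENNReal.ofReal π := by
    have e : (NNReal.pi : ℝ≥0∞) = ENNReal.ofReal π := by
      rw [ENNReal.ofReal, Real.toNNReal_of_nonneg Real.pi_pos.le]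
      rfl
    rw [him, Complex.volume_ball, ENNReal.ofReal_one, one_pow, one_mul, e]
  obtain ⟨ρ, hρ, hlen⟩ := exists_short hΩ hψ hi Real.pi_pos.le hvol p ha hab hlog
  have hρ0 : 0 < ρ := ha.trans hρ.1
  have hle : len Ω ψ p ρ ≤ ENNReal.ofReal ℓ := by
    rw [ENNReal.ofReal_pow hℓ.le] at hlen
    by_contra hcon
    exact absurd hlen (not_lt.2 (pow_le_pow_left₀ bot_le (not_le.1 hcon).le 2))
  refine ⟨ρ, hρ, (volume_proj_le hΩ hψ p hρ0).trans hle, ?_⟩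
  have h1 := volume_proj_le hΩ (ψ := fun z => -Complex.I * ψ z) (hψ.const_mul _) p hρ0
  have e1 : (fun z => ((-Complex.I * ψ z) : ℂ).re) = fun z => (ψ z).im := by
    ext z; simp
  have e2 : len Ω (fun z => -Complex.I * ψ z) p ρ = len Ω ψ p ρ := by
    unfold len
    congr 1
    ext θ
    congr 1
    unfold dens
    by_cases h : p + ρ * Complex.exp (θ * Complex.I) ∈ Ω
    · rw [indicator_of_mem h, indicator_of_mem h, deriv_const_mul _ (hψ.differentiableAt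
        (hΩ.mem_nhds h)), enorm_mul, enorm_neg]
      have : ‖Complex.I‖ₑ = 1 := by
        rw [← ofReal_norm, Complex.norm_I, ENNReal.ofReal_one]
      rw [this, one_mul]
    · rw [indicator_of_notMem h, indicator_of_notMem h]
  rw [e1, e2] at h1
  exact h1.trans hle

/-- **small image** -/
theorem small_disc {Ω : Set ℂ} (hΩ : IsOpen Ω) {ψ : ℂ → ℂ} (hψ : DifferentiableOn ℂ ψ Ω)
    (hi : InjOn ψ Ω) (him : ψ '' Ω = ball 0 1) {z₀ p : ℂ} (hz₀ : z₀ ∈ Ω) (h0 : ψ z₀ = 0)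
    {a b ℓ : ℝ} (ha : 0 < a) (hab : a < b) (hb : b ≤ dist z₀ p) (hℓ : 0 < ℓ) (hℓ1 : ℓ ≤ 1 / 8)
    (hlog : 2 * π * π < ℓ ^ 2 * Real.log (b / a)) {A : Set ℂ}
    (hA : IsPreconnected A) (hAΩ : A ⊆ Ω) (hAp : A ⊆ closedBall p a) {z z' : ℂ} (hz : z ∈ A)
    (hz' : z' ∈ A) : ‖ψ z' - ψ z‖ ≤ 4 * ℓ := by
  obtain ⟨ρ, hρ, h1, h2⟩ := exists_radius hΩ hψ hi him p ha hab hℓ hlog
  have r1 := small_disc_re hΩ hψ hi him hz₀ h0 hb hℓ hℓ1 ⟨ρ, hρ, h1, h2⟩ hA hAΩ hAp hz hz'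
  have r2 := small_disc_re hΩ hψ hi him hz₀ h0 hb hℓ hℓ1 ⟨ρ, hρ, h1, h2⟩ hA hAΩ hAp hz' hz
  have hrot : (fun z => -Complex.I * ψ z) '' Ω = ball 0 1 := by
    have : (fun z => -Complex.I * ψ z) '' Ω = (fun w => -Complex.I * w) '' (ψ '' Ω) := by
      rw [image_image]
    rw [this, him]
    ext w
    constructor
    · rintro ⟨v, hv, rfl⟩
      rw [mem_ball_zero_iff] at hv ⊢
      simpa using hv
    · intro hw
      refine ⟨Complex.I * w, ?_, ?_⟩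
      · rw [mem_ball_zero_iff] at hw ⊢
        simpa using hw
      · simp only
        rw [← mul_assoc, neg_mul, Complex.I_mul_I, neg_neg, one_mul]
  have hi' : InjOn (fun z => -Complex.I * ψ z) Ω := by
    intro u hu v hv h
    refine hi hu hv ?_
    have h' : -Complex.I * ψ u = -Complex.I * ψ v := h
    exact mul_left_cancel₀ (neg_ne_zero.2 Complex.I_ne_zero) h'
  have hX' : ∃ ρ ∈ Ioo a b,
      volume ((fun z => (-Complex.I * ψ z : ℂ).re) '' (Ω ∩ sphere p ρ)) ≤ ENNReal.ofReal ℓ ∧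
      volume ((fun z => (-Complex.I * ψ z : ℂ).im) '' (Ω ∩ sphere p ρ)) ≤ ENNReal.ofReal ℓ := by
    refine ⟨ρ, hρ, ?_, ?_⟩
    · have e1 : (fun z => ((-Complex.I * ψ z) : ℂ).re) = fun z => (ψ z).im := by
        ext z; simp
      rw [e1]; exact h2
    · have e1 : (fun z => ((-Complex.I * ψ z) : ℂ).im) = fun z => -(ψ z).re := by
        ext z; simp
      rw [e1]
      have e2 : (fun z => -(ψ z).re) '' (Ω ∩ sphere p ρ) =
          -((fun z => (ψ z).re) '' (Ω ∩ sphere p ρ)) := by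
        rw [← image_neg_eq_neg, image_image]
      rw [e2, Measure.measure_neg]
      exact h1
  have r3 := small_disc_re hΩ (hψ.const_mul (-Complex.I)) hi' hrot hz₀ (by simp [h0]) hb hℓ
    hℓ1 hX' hA hAΩ hAp hz hz'
  have r4 := small_disc_re hΩ (hψ.const_mul (-Complex.I)) hi' hrot hz₀ (by simp [h0]) hb hℓ
    hℓ1 hX' hA hAΩ hAp hz' hz
  have e3 : ∀ u : ℂ, (-Complex.I * ψ u).re = (ψ u).im := fun u => by simp
  rw [e3, e3] at r3 r4
  refine (Complex.norm_le_abs_re_add_abs_im _).trans ?_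
  rw [Complex.sub_re, Complex.sub_im]
  have a1 : |(ψ z').re - (ψ z).re| ≤ 2 * ℓ := abs_le.2 ⟨by linarith, r1⟩
  have a2 : |(ψ z').im - (ψ z).im| ≤ 2 * ℓ := abs_le.2 ⟨by linarith, r3⟩
  linarith

end Vale.Agent.P153.R2.L2A
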